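import Vale.Agent.P284.H419.K.Alg

/-!
# P284 (helper419), theorem K, density of test forms: the dual basis
-/

open scoped ContDiff Topology ComplexConjugate ComplexOrder
open Filter Set

noncomputable section

namespace Vale.Agent.P284.H419.K

open Vale.Agent.P272.K Vale.Agent.P284.H608.K

variable {n p : ℕ}

/-- the values on all the tuples of basis vectors -/
def evA : Af n p →L[ℂ] ((Fin p → Fin n) → ℂ) := ContinuousLinearMap.pi fun s => evL s

theorem exists_linv : ∃ g : ((Fin p → Fin n) → ℂ) →L[ℂ] Af n p, ∀ A : Af n p, g (evA A) = A := by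
  obtain ⟨g, hg⟩ := (evA (n := n) (p := p)).toLinearMap.exists_leftInverse_of_injective
    (LinearMap.ker_eq_bot.2 fun A B h => ext_ev fun s => congrFun h s)
  refine ⟨g.toContinuousLinearMap, fun A => ?_⟩
  exact LinearMap.congr_fun hg A

theorem contDiffAt_ev {F : Cm n → Af n p} {z : Cm n} {m : WithTop ℕ∞}
    (h : ∀ s, ContDiffAt ℝ m (fun z => ev (F z) s) z) : ContDiffAt ℝ m F z := by
  obtain ⟨g, hg⟩ := exists_linv (n := n) (p := p)
  have h1 : ContDiffAt ℝ m (fun z => evA (F z)) z := contDiffAt_pi.2 fun s => h s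
  have h2 : ContDiffAt ℝ m (fun z => g (evA (F z))) z :=
    ((g.restrictScalars ℝ).contDiff.contDiffAt).comp z h1
  exact h2.congr_of_eventuallyEq (Eventually.of_forall fun z => (hg _).symm)

/-- `‖A‖` is bounded by the values on basis vectors -/
theorem exists_ev_bd : ∃ C : ℝ, 0 < C ∧ ∀ A : Af n p, ‖A‖ ≤ C * ∑ s, ‖ev A s‖ := by
  obtain ⟨g, hg⟩ := exists_linv (n := n) (p := p)
  refine ⟨‖g‖ + 1, by positivity, fun A => ?_⟩
  calc ‖A‖ = ‖g (evA A)‖ := by rw [hg]
    _ ≤ ‖g‖ * ‖evA A‖ := g.le_opNorm _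
    _ ≤ (‖g‖ + 1) * ∑ s, ‖ev A s‖ := by
      have h1 : ‖evA A‖ ≤ ∑ s, ‖ev A s‖ := by
        refine (pi_norm_le_iff_of_nonneg (by positivity)).2 fun s => ?_
        exact Finset.single_le_sum (f := fun s => ‖ev A s‖) (fun s _ => norm_nonneg _)
          (Finset.mem_univ s)
      gcongr
      linarith

/-- the form `dz_{s 0} ∧ … ∧ dz_{s (p-1)}` -/
def bas (s : Fin p → Fin n) : Af n p :=
  { toMultilinearMap := ((Matrix.detRowAlternating (R := ℂ) (n := Fin p)).compLinearMap
      (LinearMap.pi fun j => LinearMap.proj (s j))).toMultilinearMap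
    cont := by
      change Continuous fun v : Fin p → Cm n => Matrix.det fun i j => v i (s j)
      refine Continuous.matrix_det ?_
      exact continuous_pi fun i => continuous_pi fun j =>
        (continuous_apply (s j)).comp (continuous_apply i)
    map_eq_zero_of_eq' := fun v i j h hij =>
      ((Matrix.detRowAlternating (R := ℂ) (n := Fin p)).compLinearMap
      (LinearMap.pi fun j => LinearMap.proj (s j))).map_eq_zero_of_eq v h hij }

theorem ev_bas (s t : Fin p → Fin n) : ev (bas s) t =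
    ∑ σ : Equiv.Perm (Fin p), ((Equiv.Perm.sign σ : ℤ) : ℂ) *
      ∏ i, (if s i = t (σ i) then (1 : ℂ) else 0) := by
  change Matrix.det (Matrix.of fun i j => (Pi.single (t i) (1 : ℂ) : Cm n) (s j)) = _
  rw [Matrix.det_apply]
  refine Finset.sum_congr rfl fun σ _ => ?_
  rw [Units.smul_def, zsmul_eq_mul]
  congr 1
  refine Finset.prod_congr rfl fun i _ => ?_
  rw [Matrix.of_apply, Pi.single_apply]

theorem sum_bas (s' t : Fin p → Fin n) (M : Matrix (Fin n) (Fin n) ℂ) :
    ∑ t' : Fin p → Fin n, conj (ev (bas t) t') * ∏ i, M (t' i) (s' i) =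
      ∑ σ : Equiv.Perm (Fin p), ((Equiv.Perm.sign σ : ℤ) : ℂ) * ∏ i, M (t i) (s' (σ i)) := by
  have e1 : ∀ t' : Fin p → Fin n, conj (ev (bas t) t') * ∏ i, M (t' i) (s' i) =
      ∑ σ : Equiv.Perm (Fin p), ((Equiv.Perm.sign σ : ℤ) : ℂ) *
        ((∏ i, (if t i = t' (σ i) then (1 : ℂ) else 0)) * ∏ i, M (t' i) (s' i)) := by
    intro t'
    rw [ev_bas, map_sum, Finset.sum_mul]
    refine Finset.sum_congr rfl fun σ _ => ?_
    rw [map_mul, map_prod, mul_assoc]
    have h1 : conj (((Equiv.Perm.sign σ : ℤ) : ℂ)) = ((Equiv.Perm.sign σ : ℤ) : ℂ) :=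
      map_intCast _ _
    rw [h1]
    congr 2
    refine Finset.prod_congr rfl fun i _ => ?_
    split_ifs <;> simp
  simp only [e1]
  rw [Finset.sum_comm]
  refine Finset.sum_congr rfl fun σ _ => ?_
  rw [← Finset.mul_sum]
  congr 1
  rw [Finset.sum_eq_single (fun i => t (σ.symm i))]
  · have h1 : (∏ i, (if t i = t (σ.symm (σ i)) then (1 : ℂ) else 0)) = 1 :=
      Finset.prod_eq_one fun i _ => by simp
    rw [h1, one_mul]
    exact (Equiv.prod_comp σ fun i => M (t (σ.symm i)) (s' i)).symm.trans (by simp)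
  · intro t' _ hne
    have : ∃ i, t i ≠ t' (σ i) := by
      by_contra h
      push Not at h
      refine hne (funext fun i => ?_)
      have := h (σ.symm i)
      rw [Equiv.apply_symm_apply] at this
      exact this.symm
    obtain ⟨i, hi⟩ := this
    have h1 : (∏ i, (if t i = t' (σ i) then (1 : ℂ) else 0)) = 0 :=
      Finset.prod_eq_zero (Finset.mem_univ i) (if_neg hi)
    rw [h1, zero_mul]
  · intro h; exact absurd (Finset.mem_univ _) h

theorem hn_bas (w : Matrix (Fin n) (Fin n) ℂ) (A : Af n p) (t : Fin p → Fin n) :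
    hn w A (bas t) = ∑ s : Fin p → Fin n, ev A s * ∏ i, w⁻¹ (t i) (s i) := by
  have e1 : hn w A (bas t) = ((p.factorial : ℂ))⁻¹ * ∑ s : Fin p → Fin n,
      ev A s * ∑ σ : Equiv.Perm (Fin p), ((Equiv.Perm.sign σ : ℤ) : ℂ) *
        ∏ i, w⁻¹ (t i) (s (σ i)) := by
    unfold hn
    congr 1
    refine Finset.sum_congr rfl fun s _ => ?_
    rw [← sum_bas, Finset.mul_sum]
    refine Finset.sum_congr rfl fun t' _ => ?_
    ring
  have e2 : ∀ σ : Equiv.Perm (Fin p), ∑ s : Fin p → Fin n, ev A s *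
      (((Equiv.Perm.sign σ : ℤ) : ℂ) * ∏ i, w⁻¹ (t i) (s (σ i))) =
      ∑ s : Fin p → Fin n, ev A s * ∏ i, w⁻¹ (t i) (s i) := by
    intro σ
    have h1 := (Equiv.sum_comp (Equiv.arrowCongr σ.symm (Equiv.refl (Fin n)))
      (fun s : Fin p → Fin n => ev A s * ∏ i, w⁻¹ (t i) (s i)))
    rw [← h1]
    refine Finset.sum_congr rfl fun s _ => ?_
    have h2 : (Equiv.arrowCongr σ.symm (Equiv.refl (Fin n))) s = fun i => s (σ i) := by
      funext i
      simp [Equiv.arrowCongr]
    rw [h2, ev_perm]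
    ring
  rw [e1]
  simp only [Finset.mul_sum]
  rw [Finset.sum_comm]
  have e3 : ∀ σ : Equiv.Perm (Fin p), ∑ s : Fin p → Fin n, ((p.factorial : ℂ))⁻¹ * (ev A s *
      (((Equiv.Perm.sign σ : ℤ) : ℂ) * ∏ i, w⁻¹ (t i) (s (σ i)))) = ((p.factorial : ℂ))⁻¹ *
      ∑ s : Fin p → Fin n, ev A s * ∏ i, w⁻¹ (t i) (s i) := by
    intro σ
    rw [← e2 σ, Finset.mul_sum]
  simp only [e3]
  rw [Finset.sum_const, Finset.card_univ, Fintype.card_perm, Fintype.card_fin, nsmul_eq_mul,
    ← mul_assoc, mul_inv_cancel₀ (by exact_mod_cast Nat.factorial_ne_zero p), one_mul]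

/-- the dual form of the value on `e_s` -/
def dua (w : Matrix (Fin n) (Fin n) ℂ) (s : Fin p → Fin n) : Af n p :=
  ∑ t : Fin p → Fin n, (∏ i, conj (w (s i) (t i))) • bas t

theorem hn_dua {w : Matrix (Fin n) (Fin n) ℂ} (hw : w.PosDef) (A : Af n p)
    (s : Fin p → Fin n) : hn w A (dua w s) = ev A s := by
  have hdet : IsUnit w.det := hw.det_pos.ne'.isUnit
  have hinv : ∀ a b, ∑ c, w a c * w⁻¹ c b = if a = b then (1 : ℂ) else 0 := by
    intro a b
    have := congrFun (congrFun (Matrix.mul_nonsing_inv w hdet) a) b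
    rw [Matrix.mul_apply, Matrix.one_apply] at this
    exact this
  rw [dua, hn_sum_right]
  have e1 : ∀ t : Fin p → Fin n, hn w A ((∏ i, conj (w (s i) (t i))) • bas t) =
      ∑ s' : Fin p → Fin n, ev A s' * ∏ i, (w (s i) (t i) * w⁻¹ (t i) (s' i)) := by
    intro t
    rw [hn_smul_right, hn_bas, map_prod, Finset.mul_sum]
    refine Finset.sum_congr rfl fun s' _ => ?_
    rw [Finset.prod_mul_distrib]
    simp only [Complex.conj_conj]
    ring
  simp only [e1]
  rw [Finset.sum_comm]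
  have e2 : ∀ s' : Fin p → Fin n, ∑ t : Fin p → Fin n, ev A s' *
      ∏ i, (w (s i) (t i) * w⁻¹ (t i) (s' i)) = ev A s' * ∏ i, if s i = s' i then (1 : ℂ) else 0 := by
    intro s'
    rw [← Finset.mul_sum]
    congr 1
    have h1 := Finset.prod_univ_sum (fun _ : Fin p => (Finset.univ : Finset (Fin n)))
      (fun i c => w (s i) c * w⁻¹ c (s' i))
    rw [Fintype.piFinset_univ] at h1
    rw [← h1]
    exact Finset.prod_congr rfl fun i _ => hinv _ _
  simp only [e2]
  rw [Finset.sum_eq_single s]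
  · simp
  · intro s' _ hne
    have : ∃ i, s i ≠ s' i := by
      by_contra h
      push Not at h
      exact hne (funext fun i => (h i).symm)
    obtain ⟨i, hi⟩ := this
    rw [Finset.prod_eq_zero (Finset.mem_univ i) (if_neg hi), mul_zero]
  · intro h; exact absurd (Finset.mem_univ _) h

end Vale.Agent.P284.H419.K
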