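import Vale.Agent.P284.H419.K.Seq
import Vale.Agent.P284.H286.K.EngD

/-!
# P284 (helper419), theorem K: density of the test forms in the graph norm (statements K45, K45z)
-/

open scoped ContDiff Topology ComplexConjugate ComplexOrder ENNReal
open Filter Set MeasureTheory

set_option linter.unusedSectionVars false

noncomputable section

namespace Vale.Agent.P284.H419.K

open Vale.Agent.P272.K Vale.Agent.P284.H608.K

variable {n p : ℕ} {M : Type} [TopologicalSpace M] [T2Space M] [MeasurableSpace M] [BorelSpace M]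
  {K : KA n M}

/-! ### sums -/

theorem zero_test : K.Test (0 : K.Fm p) := (H286.K.TS K p).zero_mem

theorem ip_sub_left (h3 : K3Stmt n M K) {a b ψ : K.Fm p} (ha : K.Test a) (hb : K.Test b)
    (hψ : K.Test ψ) : K.ip (a - b) ψ = K.ip a ψ - K.ip b ψ := by
  have h5 := H286.K.ip_add_left h3 (test_sub ha hb) hb hψ
  rw [sub_add_cancel] at h5
  rw [h5]
  ring

theorem nq_zero : K.nq (0 : K.Fm p) = 0 := by
  rw [KA.nq, H286.K.ip_zero_left]
  rfl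

theorem sum_test {J : ℕ} {a : Fin J → K.Fm p} (h : ∀ j, K.Test (a j)) (s : Finset (Fin J)) :
    K.Test (∑ j ∈ s, a j) := (H286.K.TS K p).sum_mem fun j _ => h j

theorem nq_sum (h1 : K1Stmt) (h3 : K3Stmt n M K) {J : ℕ} {a : Fin J → K.Fm p}
    (h : ∀ j, K.Test (a j)) {δ : ℝ} (hδ : 0 ≤ δ) (hle : ∀ j, K.nq (a j) ≤ δ)
    (s : Finset (Fin J)) : K.nq (∑ j ∈ s, a j) ≤ (4 : ℝ) ^ s.card * δ := by
  classical
  induction s using Finset.induction_on with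
  | empty =>
    rw [Finset.sum_empty, nq_zero, Finset.card_empty, pow_zero, one_mul]
    exact hδ
  | insert j s hj ih =>
    rw [Finset.sum_insert hj, Finset.card_insert_of_notMem hj]
    have h5 := nq_add_le h1 h3 (h j) (sum_test h s)
    have h6 : (1 : ℝ) ≤ 4 ^ s.card := one_le_pow₀ (by norm_num)
    have h7 := hle j
    have h8 : δ ≤ 4 ^ s.card * δ := le_mul_of_one_le_left hδ h6
    calc K.nq (a j + ∑ j ∈ s, a j) ≤ 2 * δ + 2 * (4 ^ s.card * δ) := by linarith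
      _ ≤ 4 ^ (s.card + 1) * δ := by
        rw [pow_succ]
        nlinarith

theorem dh_sum (h3 : K3Stmt n M K) {J : ℕ} {a : Fin J → K.Fm p} (h : ∀ j, K.Test (a j))
    (s : Finset (Fin J)) : K.dh (∑ j ∈ s, a j) = ∑ j ∈ s, K.dh (a j) := by
  classical
  induction s using Finset.induction_on with
  | empty => rw [Finset.sum_empty, Finset.sum_empty, dh_zero h3]
  | insert j s hj ih =>
    rw [Finset.sum_insert hj, Finset.sum_insert hj, dh_add h3 (h j) (sum_test h s), ih]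

theorem S_sum (h3 : K3Stmt n M K) {J : ℕ} {a : Fin J → K.Fm (p + 1)} (h : ∀ j, K.Test (a j))
    (s : Finset (Fin J)) : K.S (∑ j ∈ s, a j) = ∑ j ∈ s, K.S (a j) := by
  classical
  induction s using Finset.induction_on with
  | empty => rw [Finset.sum_empty, Finset.sum_empty, S_zero h3]
  | insert j s hj ih =>
    rw [Finset.sum_insert hj, Finset.sum_insert hj, S_add h3 (h j) (sum_test h s), ih]

theorem mf_sum {J : ℕ} {f : Fin J → M → ℝ} {g : M → ℝ} (h : ∀ x, g x = ∑ j, f j x)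
    (η : K.Fm p) : mf g η = ∑ j, mf (f j) η := by
  funext i z
  rw [Finset.sum_apply, Finset.sum_apply]
  change fc K g i z • η i z = ∑ j, fc K (f j) i z • η i z
  rw [← Finset.sum_smul]
  congr 1
  rw [fc, h]
  push_cast
  rfl

theorem wf_sum (h3 : K3Stmt n M K) {J : ℕ} {f : Fin J → M → ℝ} {g : M → ℝ}
    (hf : ∀ j, SmF K (f j)) (h : ∀ x, g x = ∑ j, f j x) {η : K.Fm p} (hη : K.Test η) :
    wf g η = ∑ j, wf (f j) η := by
  rw [wf, mf_sum h, mf_sum h, dh_sum h3 (fun j => mf_test (hf j) hη), ← Finset.sum_sub_distrib]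
  rfl

theorem cf_sum (h3 : K3Stmt n M K) {J : ℕ} {f : Fin J → M → ℝ} {g : M → ℝ}
    (hf : ∀ j, SmF K (f j)) (h : ∀ x, g x = ∑ j, f j x) {η : K.Fm (p + 1)} (hη : K.Test η) :
    cf g η = ∑ j, cf (f j) η := by
  rw [cf, mf_sum h, mf_sum h, S_sum h3 (fun j => mf_test (hf j) hη), ← Finset.sum_sub_distrib]
  rfl

/-- decomposition of a function with compact support -/
theorem pou_g {g : M → ℝ} (hg : SmF K g) (hb : ∀ x, |g x| ≤ 1) {D : Set M} (hD : IsCompact D)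
    (h0 : ∀ x ∉ D, g x = 0) : ∃ (J : ℕ) (f : Fin J → M → ℝ) (i : Fin J → K.I),
      (∀ j, SmF K (f j)) ∧ (∀ j x, |f j x| ≤ 1) ∧
      (∀ j, ∃ D, IsCompact D ∧ D ⊆ (K.e (i j)).source ∧ ∀ x ∉ D, f j x = 0) ∧
      ∀ x, g x = ∑ j, f j x := by
  obtain ⟨J, f, i, h1, h2, h3, h4, h5, -⟩ := H136.K9.pou K hD
  refine ⟨J, fun j x => f j x * g x, i, fun j k z hz => (h1 j k z hz).mul (hg k z hz),
    fun j x => ?_, fun j => ?_, fun x => ?_⟩
  · rw [abs_mul, abs_of_nonneg (h4 j x)]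
    exact mul_le_one₀ (h5 j x) (abs_nonneg _) (hb x)
  · obtain ⟨D', hD1, hD2, hD3⟩ := h2 j
    exact ⟨D', hD1, hD2, fun x hx => by
      change f j x * g x = 0
      rw [hD3 x hx, zero_mul]⟩
  · rw [← Finset.sum_mul]
    by_cases hx : x ∈ D
    · rw [h3 x hx, one_mul]
    · rw [h0 x hx, mul_zero]

section glob

variable (h1 : K1Stmt) (h3 : K3Stmt n M K) {J : ℕ} {f : Fin J → M → ℝ} {i : Fin J → K.I}
  (hf : ∀ j, SmF K (f j)) (hb : ∀ j x, |f j x| ≤ 1)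
  (hD : ∀ j, ∃ D, IsCompact D ∧ D ⊆ (K.e (i j)).source ∧ ∀ x ∉ D, f j x = 0)
  {g : M → ℝ} (hg : ∀ x, g x = ∑ j, f j x)

include h1 h3 hf hb hD hg

theorem mg_x {x : ℕ → K.Fm p} (hx : ∀ k, K.Test (x k)) (hN : NC x) {ε : ℝ} (hε : 0 < ε) :
    ∀ᶠ m in atTop, ∀ᶠ k in atTop, (∀ j, K.Test (Rm K (i j) m (mf (f j) (x k)))) ∧
      K.nq ((∑ j, Rm K (i j) m (mf (f j) (x k))) - mf g (x k)) ≤ ε := by
  have hj : ∀ j, ∀ᶠ m in atTop, ∀ᶠ k in atTop, K.Test (Rm K (i j) m (mf (f j) (x k))) ∧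
      K.nq (Rm K (i j) m (mf (f j) (x k)) - mf (f j) (x k)) ≤ ε / 4 ^ J := fun j => by
    obtain ⟨D, hD1, hD2, hD3⟩ := hD j
    exact mul_x h1 h3 (i j) (hf j) (hb j) hD1 hD2 hD3 hx hN (by positivity)
  filter_upwards [eventually_all.2 hj] with m hm
  filter_upwards [eventually_all.2 hm] with k hk
  refine ⟨fun j => (hk j).1, ?_⟩
  rw [mf_sum hg, ← Finset.sum_sub_distrib]
  have h5 := nq_sum h1 h3 (fun j => test_sub (hk j).1 (mf_test (hf j) (hx k)))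
    (by positivity : 0 ≤ ε / 4 ^ J) (fun j => (hk j).2) Finset.univ
  rw [Finset.card_univ, Fintype.card_fin, mul_div_cancel₀ _ (by positivity)] at h5
  exact h5

theorem mg_dh {x : ℕ → K.Fm p} (hx : ∀ k, K.Test (x k)) (hN : NC x)
    {α : ℕ → K.Fm (p + 1)} (hα : ∀ k, K.Test (α k)) (hNα : NC α)
    (hw : WN fun k => K.dh (x k) - α k) {ε : ℝ} (hε : 0 < ε) :
    ∀ᶠ m in atTop, ∀ᶠ k in atTop,
      K.nq (K.dh (∑ j, Rm K (i j) m (mf (f j) (x k))) - (mf g (α k) + wf g (x k))) ≤ ε := by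
  have hj : ∀ j, ∀ᶠ m in atTop, ∀ᶠ k in atTop, K.nq (K.dh (Rm K (i j) m (mf (f j) (x k))) -
      (mf (f j) (α k) + wf (f j) (x k))) ≤ ε / 4 ^ J := fun j => by
    obtain ⟨D, hD1, hD2, hD3⟩ := hD j
    exact mul_dh h1 h3 (i j) (hf j) (hb j) hD1 hD2 hD3 hx hN hα hNα hw (by positivity)
  filter_upwards [eventually_all.2 hj, mg_x h1 h3 hf hb hD hg hx hN hε] with m hm hm2
  filter_upwards [eventually_all.2 hm, hm2] with k hk hk2
  rw [dh_sum h3 hk2.1, mf_sum hg, wf_sum h3 hf hg (hx k), ← Finset.sum_add_distrib,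
    ← Finset.sum_sub_distrib]
  have h5 := nq_sum h1 h3 (fun j => test_sub (h3.dh_test _ _ (hk2.1 j))
    (test_add (mf_test (hf j) (hα k)) (wf_test h3 (hf j) (hx k))))
    (by positivity : 0 ≤ ε / 4 ^ J) hk Finset.univ
  rw [Finset.card_univ, Fintype.card_fin, mul_div_cancel₀ _ (by positivity)] at h5
  exact h5

theorem mg_S {x : ℕ → K.Fm (p + 1)} (hx : ∀ k, K.Test (x k)) (hN : NC x)
    {α : ℕ → K.Fm p} (hα : ∀ k, K.Test (α k)) (hNα : NC α)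
    (hw : WN fun k => K.S (x k) - α k) {ε : ℝ} (hε : 0 < ε) :
    ∀ᶠ m in atTop, ∀ᶠ k in atTop,
      K.nq (K.S (∑ j, Rm K (i j) m (mf (f j) (x k))) - (mf g (α k) + cf g (x k))) ≤ ε := by
  have hj : ∀ j, ∀ᶠ m in atTop, ∀ᶠ k in atTop, K.nq (K.S (Rm K (i j) m (mf (f j) (x k))) -
      (mf (f j) (α k) + cf (f j) (x k))) ≤ ε / 4 ^ J := fun j => by
    obtain ⟨D, hD1, hD2, hD3⟩ := hD j
    exact mul_S h1 h3 (i j) (hf j) (hb j) hD1 hD2 hD3 hx hN hα hNα hw (by positivity)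
  filter_upwards [eventually_all.2 hj, mg_x h1 h3 hf hb hD hg hx hN hε] with m hm hm2
  filter_upwards [eventually_all.2 hm, hm2] with k hk hk2
  rw [S_sum h3 hk2.1, mf_sum hg, cf_sum h3 hf hg (hx k), ← Finset.sum_add_distrib,
    ← Finset.sum_sub_distrib]
  have h5 := nq_sum h1 h3 (fun j => test_sub (h3.S_test _ _ (hk2.1 j))
    (test_add (mf_test (hf j) (hα k)) (cf_test h3 (hf j) (hx k))))
    (by positivity : 0 ≤ ε / 4 ^ J) hk Finset.univ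
  rw [Finset.card_univ, Fintype.card_fin, mul_div_cancel₀ _ (by positivity)] at h5
  exact h5

end glob

/-! ### the cut-off functions -/

theorem cut_sm (χ : K.Cut) (ν : ℕ) : SmF K (χ.χ ν) := χ.sm ν

theorem cut_abs (χ : K.Cut) (ν : ℕ) (x : M) : |χ.χ ν x| ≤ 1 := by
  rw [abs_of_nonneg (χ.nonneg ν x)]
  exact χ.le_one ν x

theorem mf_fix {g : M → ℝ} {η : K.Fm p} (h : K.IsForm η) {C : Set M} (hC : K.Off C η)
    (h1 : ∀ x ∈ C, g x = 1) : mf g η = η := by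
  funext i z
  rw [mf]
  by_cases hz : z ∈ (K.e i).target
  · by_cases hx : (K.e i).symm z ∈ C
    · rw [fc, h1 _ hx, Complex.ofReal_one, one_smul]
    · have h5 := hC i _ ((K.e i).map_target hz) hx
      rw [(K.e i).right_inv hz] at h5
      rw [h5]
      ext v
      simp
  · rw [h.off i z hz]
    ext v
    simp

/-- for a Cauchy sequence -/
theorem nc_exists {x : ℕ → K.Fm p} (hN : NC x) {ε : ℝ} (hε : 0 < ε) :
    ∃ k₀, ∀ k ≥ k₀, K.nq (x k - x k₀) ≤ ε := by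
  have h5 := hN.eventually (eventually_le_nhds hε)
  rw [← prod_atTop_atTop_eq] at h5
  obtain ⟨N, hN⟩ := (eventually_atTop_prod_self.1 (by rwa [prod_atTop_atTop_eq] at h5))
  exact ⟨N, fun k hk => hN k N hk le_rfl⟩

theorem nc_bdd (h1 : K1Stmt) (h3 : K3Stmt n M K) {x : ℕ → K.Fm p} (hx : ∀ k, K.Test (x k))
    (hN : NC x) : ∃ B : ℝ, 0 ≤ B ∧ ∀ᶠ k in atTop, K.nq (x k) ≤ B := by
  obtain ⟨k₀, hk₀⟩ := nc_exists hN one_pos
  refine ⟨2 * 1 + 2 * K.nq (x k₀), by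
    have := nq_nn h1 h3 (hx k₀)
    positivity, ?_⟩
  filter_upwards [eventually_ge_atTop k₀] with k hk
  have h5 := nq_add_le h1 h3 (test_sub (hx k) (hx k₀)) (hx k₀)
  rw [sub_add_cancel] at h5
  have h6 := hk₀ k hk
  linarith

theorem cut_x (h1 : K1Stmt) (h3 : K3Stmt n M K) (χ : K.Cut) {x : ℕ → K.Fm p}
    (hx : ∀ k, K.Test (x k)) (hN : NC x) {ε : ℝ} (hε : 0 < ε) :
    ∀ᶠ ν in atTop, ∀ᶠ k in atTop, K.nq (mf (χ.χ ν) (x k) - x k) ≤ ε := by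
  obtain ⟨k₀, hk₀⟩ := nc_exists hN (by positivity : 0 < ε / 4)
  obtain ⟨C, hC, hC2⟩ := (hx k₀).supp
  filter_upwards [H286.K.cut_one χ hC] with ν hν
  filter_upwards [eventually_ge_atTop k₀] with k hk
  have e1 : mf (χ.χ ν) (x k) - x k = mf (χ.χ ν) (x k - x k₀) - (x k - x k₀) := by
    rw [mf_sub, mf_fix (hx k₀).form hC2 hν]
    abel
  have ht := test_sub (hx k) (hx k₀)
  rw [e1]
  have h5 := nq_sub_le h1 h3 (mf_test (cut_sm χ ν) ht) ht
  have h6 := nq_mf h3 h1 (cut_sm χ ν) (cut_abs χ ν) ht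
  have h7 := hk₀ k hk
  linarith

theorem cut_gb (χ : K.Cut) (ν : ℕ) (x : M) : GB (χ.χ ν) |χ.ε ν| K (K.ix x) x :=
  mn_le (K.wpos _ _ ((K.e _).map_source (mem_ix x))) _
    (χ.grad ν _ _ ((K.e _).map_source (mem_ix x)))

theorem cut_w (h1 : K1Stmt) (h3 : K3Stmt n M K) (χ : K.Cut) (ν : ℕ) {η : K.Fm p}
    (h : K.Test η) : K.nq (wf (χ.χ ν) η) ≤ |χ.ε ν| * K.nq η :=
  nq_le h3 (wf_test h3 (cut_sm χ ν) h) h fun x =>
    ds_wf h1 h3 (cut_sm χ ν) h.form h.smooth (mem_ix x) (cut_gb χ ν x)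

theorem cut_c (h1 : K1Stmt) (h3 : K3Stmt n M K) (χ : K.Cut) (ν : ℕ) {η : K.Fm (p + 1)}
    (h : K.Test η) : K.nq (cf (χ.χ ν) η) ≤ |χ.ε ν| * K.nq η :=
  nq_le h3 (cf_test h3 (cut_sm χ ν) h) h fun x =>
    ds_cf h1 h3 (cut_sm χ ν) h.form h.smooth (mem_ix x) (cut_gb χ ν x)

theorem cut_small (χ : K.Cut) (B : ℝ) {ε : ℝ} (hε : 0 < ε) :
    ∀ᶠ ν in atTop, |χ.ε ν| * B ≤ ε := by
  have h5 : Tendsto (fun ν => |χ.ε ν| * B) atTop (𝓝 (|(0 : ℝ)| * B)) :=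
    (χ.tend.abs).mul_const B
  rw [abs_zero, zero_mul] at h5
  exact h5.eventually (eventually_le_nhds hε)

theorem cut_wk (h1 : K1Stmt) (h3 : K3Stmt n M K) (χ : K.Cut) {x : ℕ → K.Fm p}
    (hx : ∀ k, K.Test (x k)) (hN : NC x) {ε : ℝ} (hε : 0 < ε) :
    ∀ᶠ ν in atTop, ∀ᶠ k in atTop, K.nq (wf (χ.χ ν) (x k)) ≤ ε := by
  obtain ⟨B, hB, hk⟩ := nc_bdd h1 h3 hx hN
  filter_upwards [cut_small χ B hε] with ν hν
  filter_upwards [hk] with k hk
  exact (cut_w h1 h3 χ ν (hx k)).trans ((mul_le_mul_of_nonneg_left hk (abs_nonneg _)).trans hν)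

theorem cut_ck (h1 : K1Stmt) (h3 : K3Stmt n M K) (χ : K.Cut) {x : ℕ → K.Fm (p + 1)}
    (hx : ∀ k, K.Test (x k)) (hN : NC x) {ε : ℝ} (hε : 0 < ε) :
    ∀ᶠ ν in atTop, ∀ᶠ k in atTop, K.nq (cf (χ.χ ν) (x k)) ≤ ε := by
  obtain ⟨B, hB, hk⟩ := nc_bdd h1 h3 hx hN
  filter_upwards [cut_small χ B hε] with ν hν
  filter_upwards [hk] with k hk
  exact (cut_c h1 h3 χ ν (hx k)).trans ((mul_le_mul_of_nonneg_left hk (abs_nonneg _)).trans hν)

/-! ### the diagonal sequence -/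

theorem diag {X : Type*} (Q : ℕ → X → ℝ → Prop)
    (hm : ∀ k y ε ε', ε ≤ ε' → Q k y ε → Q k y ε') (x₀ : ℕ → X)
    (h : ∀ ε > 0, ∀ᶠ k in atTop, ∃ y, Q k y ε) :
    ∃ y : ℕ → X, (∀ k, y k = x₀ k ∨ ∃ ε > 0, Q k (y k) ε) ∧
      ∀ ε > 0, ∀ᶠ k in atTop, Q k (y k) ε := by
  classical
  set P : ℕ → ℕ → Prop := fun k N => ∃ y, Q k y (1 / ((N : ℝ) + 1)) with hP
  set N : ℕ → ℕ := fun k => Nat.findGreatest (P k) k with hN
  refine ⟨fun k => if hk : P k (N k) then hk.choose else x₀ k, fun k => ?_, fun ε hε => ?_⟩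
  · by_cases hk : P k (N k)
    · right
      refine ⟨1 / ((N k : ℝ) + 1), by positivity, ?_⟩
      simp only [hk, dif_pos]
      exact hk.choose_spec
    · left
      simp only [hk, dif_neg, not_false_eq_true]
  · obtain ⟨m, hm'⟩ := exists_nat_one_div_lt hε
    filter_upwards [h (1 / ((m : ℝ) + 1)) (by positivity), eventually_ge_atTop m] with k hk hkm
    have h5 : P k (N k) := Nat.findGreatest_spec hkm hk
    have h6 : m ≤ N k := Nat.le_findGreatest hkm hk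
    simp only [h5, dif_pos]
    refine hm _ _ _ _ ?_ h5.choose_spec
    refine (one_div_le_one_div_of_le (by positivity) ?_).trans hm'.le
    have : (m : ℝ) ≤ N k := by exact_mod_cast h6
    linarith

theorem tendsto_of_le {u : ℕ → ℝ} (h0 : ∀ k, 0 ≤ u k) (h : ∀ ε > 0, ∀ᶠ k in atTop, u k ≤ ε) :
    Tendsto u atTop (𝓝 0) := by
  rw [Metric.tendsto_nhds]
  intro ε hε
  filter_upwards [h (ε / 2) (half_pos hε)] with k hk
  rw [Real.dist_eq, sub_zero, abs_of_nonneg (h0 k)]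
  linarith

/-! ### the weak data -/

theorem wn_dh (h3 : K3Stmt n M K) {x : ℕ → K.Fm p} (hx : ∀ k, K.Test (x k))
    {α : ℕ → K.Fm (p + 1)} (hα : ∀ k, K.Test (α k))
    (h : ∀ ψ : K.Fm (p + 1), K.Test ψ → Tendsto (fun k => K.ip (x k) (K.S ψ) - K.ip (α k) ψ)
      atTop (𝓝 0)) : WN fun k => K.dh (x k) - α k := by
  intro ψ hψ
  refine (h ψ hψ).congr fun k => ?_
  rw [ip_sub_left h3 (h3.dh_test _ _ (hx k)) (hα k) hψ, h3.adj p (x k) ψ (hx k).form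
    (hx k).smooth hψ.form hψ.smooth (Or.inl (hx k))]

theorem wn_S (h1 : K1Stmt) (h3 : K3Stmt n M K) {x : ℕ → K.Fm (p + 1)} (hx : ∀ k, K.Test (x k))
    {β : ℕ → K.Fm p} (hβ : ∀ k, K.Test (β k))
    (h : ∀ ψ : K.Fm p, K.Test ψ → Tendsto (fun k => K.ip (x k) (K.dh ψ) - K.ip (β k) ψ)
      atTop (𝓝 0)) : WN fun k => K.S (x k) - β k := by
  intro ψ hψ
  refine (h ψ hψ).congr fun k => ?_
  rw [ip_sub_left h3 (h3.S_test _ _ (hx k)) (hβ k) hψ, H286.K.ip_conj h1 (x k) (K.dh ψ),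
    h3.adj p ψ (x k) hψ.form hψ.smooth (hx k).form (hx k).smooth (Or.inl hψ),
    ← H286.K.ip_conj h1]

/-! ### the estimates -/

theorem near (h1 : K1Stmt) (h3 : K3Stmt n M K) {a b c : K.Fm p} (ha : K.Test a) (hb : K.Test b)
    (hc : K.Test c) {ε : ℝ} (hab : K.nq (a - b) ≤ ε) (hbc : K.nq (b - c) ≤ ε) :
    K.nq (a - c) ≤ 4 * ε := by
  have h5 := nq_add_le h1 h3 (test_sub ha hb) (test_sub hb hc)
  rw [sub_add_sub_cancel] at h5
  linarith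

theorem near2 (h1 : K1Stmt) (h3 : K3Stmt n M K) {a b c d : K.Fm p} (ha : K.Test a)
    (hb : K.Test b) (hc : K.Test c) (hd : K.Test d) {ε : ℝ} (hab : K.nq (a - (b + d)) ≤ ε)
    (hbc : K.nq (b - c) ≤ ε) (hdd : K.nq d ≤ ε) : K.nq (a - c) ≤ 10 * ε := by
  have h5 := nq_add_le h1 h3 (test_sub ha (test_add hb hd)) (test_add (test_sub hb hc) hd)
  have e1 : a - (b + d) + (b - c + d) = a - c := by abel
  rw [e1] at h5
  have h6 := nq_add_le h1 h3 (test_sub hb hc) hd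
  linarith

/-- degree `0` -/
theorem k45z_of (h1 : K1Stmt) (h3 : K3Stmt n M K) : K45zStmt n M K := by
  rintro ⟨χ⟩ x α hx hα hNx hNα hw
  have hwn := wn_dh h3 hx hα hw
  have key : ∀ ε > 0, ∀ᶠ k in atTop, ∃ y : K.Fm 0, K.Test y ∧ K.nq (y - x k) ≤ ε ∧
      K.nq (K.dh y - α k) ≤ ε := by
    intro ε hε
    have hδ : 0 < ε / 10 := by positivity
    obtain ⟨ν, h5, h6, h7⟩ := ((cut_x h1 h3 χ hx hNx hδ).and ((cut_x h1 h3 χ hα hNα hδ).and
      (cut_wk h1 h3 χ hx hNx hδ))).exists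
    obtain ⟨C, hC, hC2⟩ := χ.supp ν
    obtain ⟨J, f, i, hf, hb, hD, hg⟩ := pou_g (cut_sm χ ν) (cut_abs χ ν) hC hC2
    obtain ⟨m, h8, h9⟩ := ((mg_x h1 h3 hf hb hD hg hx hNx hδ).and
      (mg_dh h1 h3 hf hb hD hg hx hNx hα hNα hwn hδ)).exists
    filter_upwards [h5, h6, h7, h8, h9] with k h5 h6 h7 h8 h9
    have hy : K.Test (∑ j, Rm K (i j) m (mf (f j) (x k))) := sum_test h8.1 _
    refine ⟨_, hy, ?_, ?_⟩
    · have := near h1 h3 hy (mf_test (cut_sm χ ν) (hx k)) (hx k) h8.2 h5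
      linarith
    · have := near2 h1 h3 (h3.dh_test _ _ hy) (mf_test (cut_sm χ ν) (hα k)) (hα k)
        (wf_test h3 (cut_sm χ ν) (hx k)) h9 h6 h7
      linarith
  obtain ⟨y, hy1, hy2⟩ := diag (fun k (y : K.Fm 0) ε => K.Test y ∧ K.nq (y - x k) ≤ ε ∧
    K.nq (K.dh y - α k) ≤ ε) (fun k y ε ε' h h' => ⟨h'.1, h'.2.1.trans h, h'.2.2.trans h⟩) x key
  have hyT : ∀ k, K.Test (y k) := fun k => by
    rcases hy1 k with h | ⟨ε, -, h⟩
    · rw [h]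
      exact hx k
    · exact h.1
  exact ⟨y, hyT,
    tendsto_of_le (fun k => nq_nn h1 h3 (test_sub (hyT k) (hx k)))
      fun ε hε => (hy2 ε hε).mono fun k h => h.2.1,
    tendsto_of_le (fun k => nq_nn h1 h3 (test_sub (h3.dh_test _ _ (hyT k)) (hα k)))
      fun ε hε => (hy2 ε hε).mono fun k h => h.2.2⟩

/-- positive degree -/
theorem k45_of (h1 : K1Stmt) (h3 : K3Stmt n M K) : K45Stmt n M K := by
  rintro ⟨χ⟩ p x α β hx hα hβ hNx hNα hNβ hw hw'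
  have hwn := wn_dh h3 hx hα hw
  have hwn' := wn_S h1 h3 hx hβ hw'
  have key : ∀ ε > 0, ∀ᶠ k in atTop, ∃ y : K.Fm (p + 1), K.Test y ∧ K.nq (y - x k) ≤ ε ∧
      K.nq (K.dh y - α k) ≤ ε ∧ K.nq (K.S y - β k) ≤ ε := by
    intro ε hε
    have hδ : 0 < ε / 10 := by positivity
    obtain ⟨ν, h5, h6, h7, h5', h6'⟩ := ((cut_x h1 h3 χ hx hNx hδ).and
      ((cut_x h1 h3 χ hα hNα hδ).and ((cut_wk h1 h3 χ hx hNx hδ).and
      ((cut_x h1 h3 χ hβ hNβ hδ).and (cut_ck h1 h3 χ hx hNx hδ))))).exists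
    obtain ⟨C, hC, hC2⟩ := χ.supp ν
    obtain ⟨J, f, i, hf, hb, hD, hg⟩ := pou_g (cut_sm χ ν) (cut_abs χ ν) hC hC2
    obtain ⟨m, h8, h9, h10⟩ := ((mg_x h1 h3 hf hb hD hg hx hNx hδ).and
      ((mg_dh h1 h3 hf hb hD hg hx hNx hα hNα hwn hδ).and
      (mg_S h1 h3 hf hb hD hg hx hNx hβ hNβ hwn' hδ))).exists
    filter_upwards [h5, h6, h7, h5', h6', h8, h9, h10] with k h5 h6 h7 h5' h6' h8 h9 h10
    have hy : K.Test (∑ j, Rm K (i j) m (mf (f j) (x k))) := sum_test h8.1 _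
    refine ⟨_, hy, ?_, ?_, ?_⟩
    · have := near h1 h3 hy (mf_test (cut_sm χ ν) (hx k)) (hx k) h8.2 h5
      linarith
    · have := near2 h1 h3 (h3.dh_test _ _ hy) (mf_test (cut_sm χ ν) (hα k)) (hα k)
        (wf_test h3 (cut_sm χ ν) (hx k)) h9 h6 h7
      linarith
    · have := near2 h1 h3 (h3.S_test _ _ hy) (mf_test (cut_sm χ ν) (hβ k)) (hβ k)
        (cf_test h3 (cut_sm χ ν) (hx k)) h10 h5' h6'
      linarith
  obtain ⟨y, hy1, hy2⟩ := diag (fun k (y : K.Fm (p + 1)) ε => K.Test y ∧ K.nq (y - x k) ≤ ε ∧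
    K.nq (K.dh y - α k) ≤ ε ∧ K.nq (K.S y - β k) ≤ ε)
    (fun k y ε ε' h h' => ⟨h'.1, h'.2.1.trans h, h'.2.2.1.trans h, h'.2.2.2.trans h⟩) x key
  have hyT : ∀ k, K.Test (y k) := fun k => by
    rcases hy1 k with h | ⟨ε, -, h⟩
    · rw [h]
      exact hx k
    · exact h.1
  exact ⟨y, hyT,
    tendsto_of_le (fun k => nq_nn h1 h3 (test_sub (hyT k) (hx k)))
      fun ε hε => (hy2 ε hε).mono fun k h => h.2.1,
    tendsto_of_le (fun k => nq_nn h1 h3 (test_sub (h3.dh_test _ _ (hyT k)) (hα k)))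
      fun ε hε => (hy2 ε hε).mono fun k h => h.2.2.1,
    tendsto_of_le (fun k => nq_nn h1 h3 (test_sub (h3.S_test _ _ (hyT k)) (hβ k)))
      fun ε hε => (hy2 ε hε).mono fun k h => h.2.2.2⟩

end Vale.Agent.P284.H419.K
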