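import Vale.Agent.P284.H608.K.Spec

/-!
# P284 (helper419), theorem K, density of test forms: algebra of the Hermitian product of forms
-/

open scoped ContDiff Topology ComplexConjugate ComplexOrder
open Filter Set

noncomputable section

namespace Vale.Agent.P284.H419.K

open Vale.Agent.P272.K Vale.Agent.P284.H608.K

variable {n p : ℕ}

/-! ### values on basis vectors -/

theorem ev_add (A B : Af n p) (s : Fin p → Fin n) : ev (A + B) s = ev A s + ev B s := rfl
theorem ev_sub (A B : Af n p) (s : Fin p → Fin n) : ev (A - B) s = ev A s - ev B s := rfl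
theorem ev_neg (A : Af n p) (s : Fin p → Fin n) : ev (-A) s = -ev A s := rfl
theorem ev_smul (c : ℂ) (A : Af n p) (s : Fin p → Fin n) : ev (c • A) s = c * ev A s := rfl
theorem ev_zero (s : Fin p → Fin n) : ev (0 : Af n p) s = 0 := rfl

/-- the values on basis vectors as a linear map -/
def evL (s : Fin p → Fin n) : Af n p →L[ℂ] ℂ :=
  ContinuousAlternatingMap.apply ℂ (Cm n) ℂ (fun i => (Pi.single (s i) (1 : ℂ) : Cm n))

theorem evL_apply (A : Af n p) (s : Fin p → Fin n) : evL s A = ev A s := rfl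

theorem ext_ev {A B : Af n p} (h : ∀ s, ev A s = ev B s) : A = B := by
  have h1 : A.toAlternatingMap = B.toAlternatingMap := by
    apply AlternatingMap.coe_multilinearMap_injective
    refine Module.Basis.ext_multilinear (fun _ => Pi.basisFun ℂ (Fin n)) fun v => ?_
    have := h v
    simpa [ev, Pi.basisFun_apply] using this
  exact ContinuousAlternatingMap.toAlternatingMap_injective h1

theorem ev_perm (A : Af n p) (σ : Equiv.Perm (Fin p)) (s : Fin p → Fin n) :
    ev A (fun i => s (σ i)) = ((Equiv.Perm.sign σ : ℤ) : ℂ) * ev A s := by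
  have := A.toAlternatingMap.map_perm (fun i => (Pi.single (s i) (1 : ℂ) : Cm n)) σ
  have h2 : (A fun i => (Pi.single (s (σ i)) (1 : ℂ) : Cm n)) =
      Equiv.Perm.sign σ • A fun i => (Pi.single (s i) (1 : ℂ) : Cm n) := this
  rw [ev, h2, Units.smul_def, zsmul_eq_mul]
  rfl

instance finDim : FiniteDimensional ℂ (Af n p) := by
  let L : Af n p →ₗ[ℂ] ((Fin p → Fin n) → ℂ) := LinearMap.pi fun s => (evL s).toLinearMap
  refine FiniteDimensional.of_injective L ?_
  intro A B h
  exact ext_ev fun s => congrFun h s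

instance finDimR : FiniteDimensional ℝ (Af n p) := Module.Finite.trans ℂ _

theorem af_zero_of_lt (h : n < p) (A : Af n p) : A = 0 := by
  refine ext_ev fun s => ?_
  rw [ev_zero]
  have : ¬ Function.Injective s := by
    intro hs
    have := Fintype.card_le_of_injective s hs
    simp at this
    omega
  rw [Function.Injective] at this
  push Not at this
  obtain ⟨a, b, hab, hne⟩ := this
  refine A.toAlternatingMap.map_eq_zero_of_eq _ (i := a) (j := b) ?_ hne
  rw [hab]

/-! ### the Hermitian product -/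

variable {w : Matrix (Fin n) (Fin n) ℂ}

theorem hn_add_left (A B C : Af n p) : hn w (A + B) C = hn w A C + hn w B C := by
  simp only [hn, ev_add, add_mul, Finset.sum_add_distrib, mul_add]

theorem hn_smul_left (c : ℂ) (A C : Af n p) : hn w (c • A) C = c * hn w A C := by
  simp only [hn, ev_smul, Finset.mul_sum]
  refine Finset.sum_congr rfl fun s _ => Finset.sum_congr rfl fun t _ => ?_
  ring

theorem hn_add_right (A B C : Af n p) : hn w A (B + C) = hn w A B + hn w A C := by
  simp only [hn, ev_add, map_add, mul_add, add_mul, Finset.sum_add_distrib]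

theorem hn_smul_right (c : ℂ) (A C : Af n p) : hn w A (c • C) = conj c * hn w A C := by
  simp only [hn, ev_smul, Finset.mul_sum, map_mul]
  refine Finset.sum_congr rfl fun s _ => Finset.sum_congr rfl fun t _ => ?_
  ring

theorem hn_zero_left (C : Af n p) : hn w 0 C = 0 := by simp [hn, ev_zero]

theorem hn_zero_right (C : Af n p) : hn w C 0 = 0 := by simp [hn, ev_zero]

theorem hn_neg_left (A C : Af n p) : hn w (-A) C = -hn w A C := by
  rw [← neg_one_smul ℂ A, hn_smul_left, neg_one_mul]

theorem hn_neg_right (A C : Af n p) : hn w A (-C) = -hn w A C := by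
  rw [← neg_one_smul ℂ C, hn_smul_right]; simp

theorem hn_sub_left (A B C : Af n p) : hn w (A - B) C = hn w A C - hn w B C := by
  rw [sub_eq_add_neg, hn_add_left, hn_neg_left, sub_eq_add_neg]

theorem hn_sub_right (A B C : Af n p) : hn w A (B - C) = hn w A B - hn w A C := by
  rw [sub_eq_add_neg, hn_add_right, hn_neg_right, sub_eq_add_neg]

theorem hn_sum_right {κ : Type} (T : Finset κ) (A : Af n p) (f : κ → Af n p) :
    hn w A (∑ i ∈ T, f i) = ∑ i ∈ T, hn w A (f i) := by
  classical
  induction T using Finset.induction_on with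
  | empty => simp [hn_zero_right]
  | insert a T ha ih => rw [Finset.sum_insert ha, Finset.sum_insert ha, hn_add_right, ih]

/-- the square of the norm -/
def nn (w : Matrix (Fin n) (Fin n) ℂ) (A : Af n p) : ℝ := (hn w A A).re

theorem nn_zero : nn w (0 : Af n p) = 0 := by simp [nn, hn_zero_left]

theorem hn_self (h1 : K1Stmt) (hw : w.PosDef) (A : Af n p) : hn w A A = (nn w A : ℂ) := by
  have := h1.conj_symm n p w hw A A
  apply Complex.ext
  · simp [nn]
  · have h2 := congrArg Complex.im this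
    rw [Complex.conj_im] at h2
    simp
    linarith

theorem nn_nonneg (h1 : K1Stmt) (hw : w.PosDef) (A : Af n p) : 0 ≤ nn w A := by
  by_cases hA : A = 0
  · rw [hA, nn_zero]
  · exact (Complex.pos_iff.1 (h1.pos n p w hw A hA)).1.le

theorem nn_pos (h1 : K1Stmt) (hw : w.PosDef) {A : Af n p} (hA : A ≠ 0) : 0 < nn w A :=
  (Complex.pos_iff.1 (h1.pos n p w hw A hA)).1

theorem nn_smul (c : ℂ) (A : Af n p) : nn w (c • A) = ‖c‖ ^ 2 * nn w A := by
  rw [nn, hn_smul_left, hn_smul_right, ← mul_assoc, Complex.mul_conj, Complex.normSq_eq_norm_sq]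
  rw [Complex.re_ofReal_mul]
  rfl

theorem nn_neg (A : Af n p) : nn w (-A) = nn w A := by
  rw [nn, hn_neg_left, hn_neg_right, neg_neg]; rfl

theorem nn_add_le (h1 : K1Stmt) (hw : w.PosDef) (A B : Af n p) :
    nn w (A + B) ≤ 2 * nn w A + 2 * nn w B := by
  have h2 := nn_nonneg h1 hw (A - B)
  have h3 : nn w (A + B) + nn w (A - B) = 2 * nn w A + 2 * nn w B := by
    simp only [nn, hn_add_left, hn_add_right, hn_sub_left, hn_sub_right, Complex.add_re,
      Complex.sub_re]
    ring
  linarith

theorem nn_sub_le (h1 : K1Stmt) (hw : w.PosDef) (A B : Af n p) :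
    nn w (A - B) ≤ 2 * nn w A + 2 * nn w B := by
  have := nn_add_le h1 hw A (-B)
  rwa [nn_neg, ← sub_eq_add_neg] at this

/-! ### multiplication by a covector -/

/-- `μ ∧ η` -/
def dW (μ : Fin n → ℂ) (η : Af n p) : Af n (p + 1) :=
  ContinuousAlternatingMap.alternatizeUncurryFin
    (∑ a, (ContinuousLinearMap.proj (R := ℂ) (φ := fun _ : Fin n => ℂ) a).smulRight (μ a • η))

/-- contraction with the covector `c` (of type `(0,1)`) -/
def cT (w : Matrix (Fin n) (Fin n) ℂ) (c : Fin n → ℂ) (η : Af n (p + 1)) : Af n p :=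
  Lam w fun b => c b • η

/-- the square of the norm of `μ` -/
def mn (w : Matrix (Fin n) (Fin n) ℂ) (μ : Fin n → ℂ) : ℂ :=
  ∑ b, ∑ b', w⁻¹ b b' * (conj (μ b) * μ b')

theorem dW_zero (μ : Fin n → ℂ) : dW μ (0 : Af n p) = 0 := by
  have : (∑ a, (ContinuousLinearMap.proj (R := ℂ) (φ := fun _ : Fin n => ℂ) a).smulRight
      (μ a • (0 : Af n p))) = 0 := by
    refine Finset.sum_eq_zero fun a _ => ?_
    ext x v
    simp
  rw [dW, this]
  have h2 := ContinuousAlternatingMap.alternatizeUncurryFin_add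
    (0 : Cm n →L[ℂ] Af n p) 0
  rw [add_zero] at h2
  exact left_eq_add.1 h2

theorem cT_zero (c : Fin n → ℂ) : cT w c (0 : Af n (p + 1)) = 0 := by
  unfold cT Lam
  refine Finset.sum_eq_zero fun a _ => Finset.sum_eq_zero fun b _ => ?_
  ext v
  simp

theorem tn_eq (μ : Fin n → ℂ) (η : Af n p) :
    (∑ b, ∑ b', w⁻¹ b b' * hn w (conj (μ b) • η) (conj (μ b') • η)) = mn w μ * hn w η η := by
  simp only [mn, Finset.sum_mul]
  refine Finset.sum_congr rfl fun b _ => Finset.sum_congr rfl fun b' _ => ?_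
  rw [hn_smul_left, hn_smul_right, Complex.conj_conj]
  ring

theorem qp_ne (hw : w.PosDef) (a b : ℕ) :
    (a.factorial : ℂ) ^ 2 * (b.factorial : ℂ) * w.det ≠ 0 := by
  have h1 : w.det ≠ 0 := hw.det_pos.ne'
  have h2 : (a.factorial : ℂ) ≠ 0 := by exact_mod_cast Nat.factorial_ne_zero a
  have h3 : (b.factorial : ℂ) ≠ 0 := by exact_mod_cast Nat.factorial_ne_zero b
  exact mul_ne_zero (mul_ne_zero (pow_ne_zero 2 h2) h3) h1

theorem pyth (h1 : K1Stmt) (hw : w.PosDef) (hp : p + 2 ≤ n) (μ : Fin n → ℂ) (η : Af n (p + 1)) :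
    hn w (dW μ η) (dW μ η) + hn w (cT w (fun b => conj (μ b)) η) (cT w (fun b => conj (μ b)) η) =
      mn w μ * hn w η η := by
  have e2 := h1.F2 n (p + 1) hp w hw (fun a => μ a • η) (fun a => μ a • η)
  have e3 := h1.F3 n p hp w hw (fun b => conj (μ b) • η) (fun b => conj (μ b) • η)
  rw [tn_eq] at e3
  have e4 : (fun (s t : Fin (p + 2) → Fin n) => ev ((fun b => conj (μ b) • η) (t 0)) (fun i => s i.succ) *
      conj (ev ((fun b => conj (μ b) • η) (s 0)) fun i => t i.succ)) =
      fun s t => ev ((fun a => μ a • η) (s 0)) (fun i => s i.succ) *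
        conj (ev ((fun a => μ a • η) (t 0)) fun i => t i.succ) := by
    funext s t
    simp only [ev_smul, map_mul, Complex.conj_conj]
    ring
  rw [e4, e2] at e3
  have h5 := mul_left_cancel₀ (qp_ne hw (p + 1) (n - (p + 1) - 1)) e3
  unfold dW cT
  rw [h5]
  ring

theorem pyth_top (h1 : K1Stmt) (hw : w.PosDef) (hp : n = p + 1) (μ : Fin n → ℂ)
    (η : Af n (p + 1)) :
    hn w (cT w (fun b => conj (μ b)) η) (cT w (fun b => conj (μ b)) η) = mn w μ * hn w η η := by
  subst hp
  rw [← tn_eq]
  exact (h1.F3t p w hw (fun b => conj (μ b) • η) (fun b => conj (μ b) • η)).symm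

theorem pyth_zero (h1 : K1Stmt) (hw : w.PosDef) (hp : 1 ≤ n) (μ : Fin n → ℂ) (η : Af n 0) :
    hn w (dW μ η) (dW μ η) = mn w μ * hn w η η := by
  have e2 := h1.F2 n 0 hp w hw (fun a => μ a • η) (fun a => μ a • η)
  have e3 := h1.F3z n hp w hw (fun b => conj (μ b) • η) (fun b => conj (μ b) • η)
  rw [tn_eq] at e3
  have e4 : (fun (s t : Fin 1 → Fin n) => ev ((fun b => conj (μ b) • η) (t 0)) (fun i => s i.succ) *
      conj (ev ((fun b => conj (μ b) • η) (s 0)) fun i => t i.succ)) =
      fun s t => ev ((fun a => μ a • η) (s 0)) (fun i => s i.succ) *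
        conj (ev ((fun a => μ a • η) (t 0)) fun i => t i.succ) := by
    funext s t
    simp only [ev_smul, map_mul, Complex.conj_conj]
    ring
  rw [e4, e2] at e3
  have h2 : (((n - 0 - 1).factorial : ℕ) : ℂ) * w.det ≠ 0 :=
    mul_ne_zero (by exact_mod_cast Nat.factorial_ne_zero _) hw.det_pos.ne'
  have e5 : (((n - 0 - 1).factorial : ℕ) : ℂ) * w.det * hn w (dW μ η) (dW μ η) =
      (((n - 0 - 1).factorial : ℕ) : ℂ) * w.det * (mn w μ * hn w η η) := by
    have : n - 0 - 1 = n - 1 := by omega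
    rw [this] at e3 ⊢
    have e6 := e3
    simp only [Nat.factorial_zero, Nat.cast_one, one_pow, one_mul] at e6
    exact e6
  exact mul_left_cancel₀ h2 e5

theorem dW_le (h1 : K1Stmt) (hw : w.PosDef) (μ : Fin n → ℂ) (η : Af n p)
    (hm : 0 ≤ (mn w μ).re) : nn w (dW μ η) ≤ (mn w μ).re * nn w η := by
  have key : ∀ x : ℂ, (mn w μ * (nn w η : ℂ)).re = (mn w μ).re * nn w η := fun _ =>
    Complex.re_mul_ofReal _ _
  rcases Nat.lt_or_ge n (p + 1) with h | h
  · rw [af_zero_of_lt h (dW μ η), nn_zero]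
    exact mul_nonneg hm (nn_nonneg h1 hw _)
  · cases p with
    | zero =>
      have := congrArg Complex.re (pyth_zero h1 hw h μ η)
      rw [hn_self h1 hw η, key 0] at this
      exact this.le
    | succ p =>
      have := congrArg Complex.re (pyth h1 hw (by omega) μ η)
      rw [hn_self h1 hw η, key 0, Complex.add_re] at this
      have h3 := nn_nonneg h1 hw (cT w (fun b => conj (μ b)) η)
      unfold nn at h3 ⊢
      unfold nn at this
      linarith

theorem cT_le (h1 : K1Stmt) (hw : w.PosDef) (μ : Fin n → ℂ) (η : Af n (p + 1))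
    (_ : 0 ≤ (mn w μ).re) : nn w (cT w (fun b => conj (μ b)) η) ≤ (mn w μ).re * nn w η := by
  have key : (mn w μ * (nn w η : ℂ)).re = (mn w μ).re * nn w η := Complex.re_mul_ofReal _ _
  rcases Nat.lt_or_ge n (p + 1) with h | h
  · rw [af_zero_of_lt h η, cT_zero, nn_zero, nn_zero, mul_zero]
  · rcases Nat.lt_or_ge n (p + 2) with h' | h'
    · have := congrArg Complex.re (pyth_top h1 hw (by omega) μ η)
      rw [hn_self h1 hw η, key] at this
      exact this.le
    · have := congrArg Complex.re (pyth h1 hw h' μ η)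
      rw [hn_self h1 hw η, key, Complex.add_re] at this
      have h3 := nn_nonneg h1 hw (dW μ η)
      unfold nn at h3 ⊢
      unfold nn at this
      linarith

theorem mn_nonneg (hw : w.PosDef) (μ : Fin n → ℂ) : 0 ≤ (mn w μ).re := by
  have h2 := hw.inv.posSemidef.re_dotProduct_nonneg μ
  have h3 : star μ ⬝ᵥ (w⁻¹.mulVec μ) = mn w μ := by
    rw [mn]
    simp only [dotProduct, Matrix.mulVec, Finset.mul_sum, Pi.star_apply, RCLike.star_def]
    refine Finset.sum_congr rfl fun b _ => Finset.sum_congr rfl fun b' _ => ?_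
    ring
  rw [h3] at h2
  exact h2

/-- the size of `μ` from `ε w - μ μ* ≥ 0` -/
theorem mn_le (hw : w.PosDef) (μ : Fin n → ℂ) {ε : ℝ}
    (h : (((ε : ℝ) : ℂ) • w - Matrix.of fun j k => μ j * conj (μ k)).PosSemidef) :
    (mn w μ).re ≤ |ε| := by
  have hdet : IsUnit w.det := hw.det_pos.ne'.isUnit
  set v : Fin n → ℂ := w⁻¹.mulVec μ with hv
  have hwv : w.mulVec v = μ := by
    rw [hv, Matrix.mulVec_mulVec, Matrix.mul_nonsing_inv w hdet, Matrix.one_mulVec]
  have hm1 : star μ ⬝ᵥ v = mn w μ := by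
    rw [mn, hv]
    simp only [dotProduct, Matrix.mulVec, Finset.mul_sum, Pi.star_apply, RCLike.star_def]
    refine Finset.sum_congr rfl fun b _ => Finset.sum_congr rfl fun b' _ => ?_
    ring
  have hherm : w⁻¹.IsHermitian := hw.inv.1
  have hm2 : star v ⬝ᵥ μ = mn w μ := by
    have h3 : star v ⬝ᵥ μ = star μ ⬝ᵥ v := by
      rw [hv, Matrix.star_mulVec, ← Matrix.dotProduct_mulVec, hherm.eq]
    rw [h3, hm1]
  have hreal : ((mn w μ).re : ℂ) = mn w μ := by
    apply Complex.ext
    · simp
    · have h4 : conj (mn w μ) = mn w μ := by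
        conv_rhs => rw [← hm2]
        conv_lhs => rw [← hm1]
        rw [← RCLike.star_def, Matrix.star_dotProduct, star_star]
      have h5 := congrArg Complex.im h4
      rw [Complex.conj_im] at h5
      simp
      linarith
  have h6 := h.re_dotProduct_nonneg v
  have h7 : star v ⬝ᵥ (((ε : ℝ) : ℂ) • w - Matrix.of fun j k => μ j * conj (μ k)).mulVec v =
      (ε : ℂ) * mn w μ - mn w μ * mn w μ := by
    rw [Matrix.sub_mulVec, dotProduct_sub, Matrix.smul_mulVec, dotProduct_smul, hwv, hm2]
    congr 1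
    have h8 : (Matrix.of fun j k => μ j * conj (μ k)).mulVec v = (mn w μ) • μ := by
      funext j
      rw [← hm1]
      simp only [Matrix.mulVec, dotProduct, Matrix.of_apply, Pi.smul_apply, smul_eq_mul,
        Finset.sum_mul, Pi.star_apply, RCLike.star_def]
      refine Finset.sum_congr rfl fun k _ => ?_
      ring
    rw [h8, dotProduct_smul, hm2]
    rfl
  rw [h7, ← hreal] at h6
  have h8 : 0 ≤ ε * (mn w μ).re - (mn w μ).re * (mn w μ).re := by
    have h9 : RCLike.re ((ε : ℂ) * ((mn w μ).re : ℂ) - ((mn w μ).re : ℂ) * ((mn w μ).re : ℂ)) =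
        ε * (mn w μ).re - (mn w μ).re * (mn w μ).re := by
      simp
    rw [← h9]
    exact h6
  have h10 := mn_nonneg hw μ
  rcases h10.eq_or_lt with h | h
  · rw [← h]; exact abs_nonneg _
  · have : (mn w μ).re ≤ ε := by nlinarith
    exact this.trans (le_abs_self _)

end Vale.Agent.P284.H419.K
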