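import Vale.Agent.P284.H419.K.Op

/-!
# P284 (helper419), theorem K, density of test forms: approximation in one framed chart
-/

open scoped ContDiff Topology ComplexConjugate ComplexOrder ENNReal
open Filter Set MeasureTheory

set_option linter.unusedSectionVars false

noncomputable section

namespace Vale.Agent.P284.H419.K

open Vale.Agent.P272.K Vale.Agent.P284.H608.K

variable {n p : ℕ} {M : Type} [TopologicalSpace M] [T2Space M] [MeasurableSpace M] [BorelSpace M]
  {K : KA n M}

theorem sq_eLp {V : Type} [NormedAddCommGroup V] (u : Cm n → V) :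
    (eLpNorm u 2 volume) ^ 2 = ∫⁻ z, ‖u z‖ₑ ^ 2 := by
  rw [eLpNorm_eq_lintegral_rpow_enorm_toReal (by norm_num) (by norm_num)]
  have h2 : (2 : ℝ≥0∞).toReal = 2 := by norm_num
  rw [h2, ← ENNReal.rpow_two, ← ENNReal.rpow_mul]
  norm_num

theorem off_dh {C : Set M} (hC : IsClosed C) {η : K.Fm p} (h : K.Off C η) :
    K.Off C (K.dh η) := by
  intro i x hx hxC
  have hz := (K.e i).map_source hx
  rw [KA.dh, if_pos hz]
  have hc : ContinuousAt (K.e i).symm (K.e i x) := (K.e i).continuousAt_symm hz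
  have hev : η i =ᶠ[𝓝 (K.e i x)] fun _ => 0 := by
    have h1 : Cᶜ ∈ 𝓝 ((K.e i).symm (K.e i x)) := by
      rw [(K.e i).left_inv hx]
      exact hC.isOpen_compl.mem_nhds hxC
    filter_upwards [hc.preimage_mem_nhds h1, (K.e i).open_target.mem_nhds hz] with y hy hyt
    have := h i _ ((K.e i).map_target hyt) hy
    rwa [(K.e i).right_inv hyt] at this
  have hfd : fderiv ℝ (η i) (K.e i x) = 0 := by
    rw [hev.fderiv_eq, fderiv_fun_const]
    rfl
  have h0 : η i (K.e i x) = 0 := hev.eq_of_nhds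
  have e1 : ∀ a, dzV a (η i) (K.e i x) - dz a (fun y => (K.φ i y : ℂ)) (K.e i x) •
      η i (K.e i x) = 0 := by
    intro a
    rw [dzV, hfd, h0]
    ext v
    simp
  unfold dhL
  simp only [e1]
  have e2 : (∑ a, (ContinuousLinearMap.proj (R := ℂ) (φ := fun _ : Fin n => ℂ) a).smulRight
      (0 : Af n p)) = 0 := by
    refine Finset.sum_eq_zero fun a _ => ?_
    ext x v
    simp
  rw [e2]
  exact map_zero (ContinuousAlternatingMap.alternatizeUncurryFinCLM ℂ (Cm n) ℂ)

theorem off_S {C : Set M} (hC : IsClosed C) {η : K.Fm (p + 1)} (h : K.Off C η) :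
    K.Off C (K.S η) := by
  intro i x hx hxC
  have hz := (K.e i).map_source hx
  rw [KA.S, if_pos hz]
  have hc : ContinuousAt (K.e i).symm (K.e i x) := (K.e i).continuousAt_symm hz
  have hev : η i =ᶠ[𝓝 (K.e i x)] fun _ => 0 := by
    have h1 : Cᶜ ∈ 𝓝 ((K.e i).symm (K.e i x)) := by
      rw [(K.e i).left_inv hx]
      exact hC.isOpen_compl.mem_nhds hxC
    filter_upwards [hc.preimage_mem_nhds h1, (K.e i).open_target.mem_nhds hz] with y hy hyt
    have := h i _ ((K.e i).map_target hyt) hy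
    rwa [(K.e i).right_inv hyt] at this
  have hfd : fderiv ℝ (η i) (K.e i x) = 0 := by
    rw [hev.fderiv_eq, fderiv_fun_const]
    rfl
  have e1 : (fun b => dbV b (η i) (K.e i x)) = fun _ => 0 := by
    funext b
    rw [dbV, hfd]
    ext v
    simp
  unfold SL
  rw [e1]
  unfold Lam
  ext v
  simp

theorem off_sub {C : Set M} {η ζ : K.Fm p} (h : K.Off C η) (h' : K.Off C ζ) :
    K.Off C (η - ζ) := by
  intro i x hx hxC
  change η i (K.e i x) - ζ i (K.e i x) = 0
  rw [h i x hx hxC, h' i x hx hxC, sub_self]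

theorem off_mono {C D : Set M} (hCD : C ⊆ D) {η : K.Fm p} (h : K.Off C η) : K.Off D η :=
  fun i x hx hxD => h i x hx fun hc => hxD (hCD hc)

/-- comparison of the norm of a form with the norm in the chart -/
theorem norm_cmp (h1 : K1Stmt) (h3 : K3Stmt n M K) (p : ℕ) (i : K.I) {C : Set M}
    (hC : IsCompact C) (hCs : C ⊆ (K.e i).source) : ∃ c D : ℝ, 0 < c ∧ 0 < D ∧
      ∀ η : K.Fm p, K.Test η → K.Off C η →
        ENNReal.ofReal c * (eLpNorm (η i) 2 volume) ^ 2 ≤ ENNReal.ofReal (K.nq η) ∧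
        ENNReal.ofReal (K.nq η) ≤ ENNReal.ofReal D * (eLpNorm (η i) 2 volume) ^ 2 := by
  have hSc : IsCompact (K.e i '' C) := hC.image_of_continuousOn ((K.e i).continuousOn.mono hCs)
  have hST : K.e i '' C ⊆ (K.e i).target := by
    rintro _ ⟨x, hx, rfl⟩
    exact (K.e i).map_source (hCs hx)
  obtain ⟨c, D, hc, hD, hcD⟩ := cmp h1 K p i hSc hST
  refine ⟨c, D, hc, hD, fun η hη hηC => ?_⟩
  have hTm := (K.e i).open_target.measurableSet
  have hoff : ∀ z ∉ K.e i '' C, η i z = 0 := by
    have := chart_off i hη.form hηC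
    rwa [inter_eq_left.2 hCs] at this
  have hcont : Continuous (η i) := by
    have h5 : ContDiff ℝ ∞ (η i) := contDiff_iff_contDiffAt.2
      (chart_smooth i hη.form hη.smooth hC hηC hCs)
    exact h5.continuous
  have e1 : ∫⁻ z, ‖η i z‖ₑ ^ 2 = ∫⁻ z in (K.e i).target, ‖η i z‖ₑ ^ 2 := by
    rw [← lintegral_indicator hTm]
    refine lintegral_congr fun z => ?_
    by_cases hz : z ∈ (K.e i).target
    · rw [indicator_of_mem hz]
    · rw [indicator_of_notMem hz, hoff z fun h => hz (hST h),
        show ‖(0 : Af n p)‖ₑ = 0 from by rw [← ofReal_norm, norm_zero, ENNReal.ofReal_zero]]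
      norm_num
  have e2 : ∀ a : ℝ, 0 ≤ a → ENNReal.ofReal a * ∫⁻ z in (K.e i).target, ‖η i z‖ₑ ^ 2 =
      ∫⁻ z in (K.e i).target, ENNReal.ofReal (a * ‖η i z‖ ^ 2) := by
    intro a ha
    rw [← lintegral_const_mul _ (hcont.enorm.measurable.pow_const 2)]
    refine lintegral_congr fun z => ?_
    rw [ENNReal.ofReal_mul ha, ENNReal.ofReal_pow (norm_nonneg _), ofReal_norm]
  have e3 : ENNReal.ofReal (K.nq η) = K.nl η := (H286.K.nl_eq h1 h3 hη).symm
  rw [e3, sq_eLp, e1, e2 c hc.le, e2 D hD.le, nl_loc h3 hη.form hη.smooth i hηC hCs]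
  have e4 : ∀ z, (den K i η η z).re = Real.exp (-K.φ i z) * nn (K.w i z) (η i z) := fun z =>
    Complex.re_ofReal_mul _ _
  constructor
  · refine lintegral_mono fun z => ENNReal.ofReal_le_ofReal ?_
    rw [e4]
    by_cases hz : z ∈ K.e i '' C
    · exact (hcD z hz (η i z)).1
    · rw [hoff z hz, nn_zero]
      simp
  · refine lintegral_mono fun z => ENNReal.ofReal_le_ofReal ?_
    rw [e4]
    by_cases hz : z ∈ K.e i '' C
    · exact (hcD z hz (η i z)).2
    · rw [hoff z hz, nn_zero]
      simp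

/-- Cauchy sequences of forms -/
def NC (x : ℕ → K.Fm p) : Prop := Tendsto (fun q : ℕ × ℕ => K.nq (x q.1 - x q.2)) atTop (𝓝 0)

/-- weakly null sequences -/
def WN (r : ℕ → K.Fm p) : Prop := ∀ ψ, K.Test ψ → Tendsto (fun k => K.ip (r k) ψ) atTop (𝓝 0)

theorem cs_of (h1 : K1Stmt) (h3 : K3Stmt n M K) (i : K.I) {C : Set M} (hC : IsCompact C)
    (hCs : C ⊆ (K.e i).source) {x : ℕ → K.Fm p} (hx : ∀ k, K.Test (x k))
    (hxC : ∀ k, K.Off C (x k)) (h : NC x) : CS volume fun k => x k i := by
  obtain ⟨c, D, hc, hD, hcD⟩ := norm_cmp h1 h3 p i hC hCs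
  have hc0 : ENNReal.ofReal c ≠ 0 := (ENNReal.ofReal_pos.2 hc).ne'
  have h5 : Tendsto (fun q : ℕ × ℕ => (ENNReal.ofReal c)⁻¹ *
      ENNReal.ofReal (K.nq (x q.1 - x q.2))) atTop (𝓝 0) := by
    have h6 : Tendsto (fun q : ℕ × ℕ => ENNReal.ofReal (K.nq (x q.1 - x q.2))) atTop (𝓝 0) := by
      have := ENNReal.tendsto_ofReal h
      rwa [ENNReal.ofReal_zero] at this
    have := ENNReal.Tendsto.const_mul h6 (Or.inr (ENNReal.inv_ne_top.2 hc0))
    rwa [mul_zero] at this
  have h6 : Tendsto (fun q : ℕ × ℕ => (eLpNorm (x q.1 i - x q.2 i) 2 volume) ^ 2) atTop (𝓝 0) := by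
    refine tendsto_of_tendsto_of_tendsto_of_le_of_le tendsto_const_nhds h5
      (fun _ => zero_le) fun q => ?_
    have h7 := (hcD (x q.1 - x q.2) (test_sub (hx _) (hx _)) (off_sub (hxC _) (hxC _))).1
    calc (eLpNorm (x q.1 i - x q.2 i) 2 volume) ^ 2 = (ENNReal.ofReal c)⁻¹ *
          (ENNReal.ofReal c * (eLpNorm (x q.1 i - x q.2 i) 2 volume) ^ 2) := by
          rw [← mul_assoc, ENNReal.inv_mul_cancel hc0 ENNReal.ofReal_ne_top, one_mul]
      _ ≤ _ := by gcongr; exact h7
  have h8 : Tendsto (fun q : ℕ × ℕ => ((eLpNorm (x q.1 i - x q.2 i) 2 volume) ^ 2) ^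
      ((1 : ℝ) / 2)) atTop (𝓝 (0 ^ ((1 : ℝ) / 2))) :=
    (ENNReal.continuous_rpow_const.tendsto _).comp h6
  rw [ENNReal.zero_rpow_of_pos (by norm_num)] at h8
  refine h8.congr fun q => ?_
  rw [← ENNReal.rpow_two, ← ENNReal.rpow_mul]
  norm_num

theorem ev_dua_smooth {w : Cm n → Matrix (Fin n) (Fin n) ℂ} {z : Cm n}
    (hw : ∀ j k, ContDiffAt ℝ ∞ (fun z => w z j k) z) (s t : Fin p → Fin n) :
    ContDiffAt ℝ ∞ (fun z => ev (dua (w z) s) t) z := by
  have e1 : (fun z => ev (dua (w z) s) t) = fun z => ∑ t' : Fin p → Fin n,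
      (∏ i, conj (w z (s i) (t' i))) * ev (bas t') t := by
    funext z
    rw [dua, ← evL_apply, map_sum]
    rfl
  rw [e1]
  exact ContDiffAt.sum fun t' _ => (contDiffAt_prod fun i _ => conj_smooth (hw _ _)).mul
    contDiffAt_const

/-- weakly null sequences of forms with support in a chart: the mollifications converge
pointwise -/
theorem weak_pt (h3 : K3Stmt n M K) (i : K.I) {C : Set M} (hC : IsCompact C)
    (hCs : C ⊆ (K.e i).source) {r : ℕ → K.Fm p} (hr : ∀ k, K.Test (r k))
    (hrC : ∀ k, K.Off C (r k)) (h : WN r) (m : ℕ) (z : Cm n) :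
    Tendsto (fun k => Mo volume m (r k i) z) atTop (𝓝 0) := by
  have hSc : IsCompact (K.e i '' C) := hC.image_of_continuousOn ((K.e i).continuousOn.mono hCs)
  have hST : K.e i '' C ⊆ (K.e i).target := by
    rintro _ ⟨x, hx, rfl⟩
    exact (K.e i).map_source (hCs hx)
  obtain ⟨θ, hθ, hθs, hθT, hθ1⟩ := exists_theta hSc (K.e i).open_target hST
  have key : ∀ s : Fin p → Fin n, Tendsto (fun k => ev (Mo volume m (r k i) z) s) atTop (𝓝 0) := by
    intro s
    set g : Cm n → Af n p := fun y => ((ro volume m (z - y) * θ y * Real.exp (K.φ i y) *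
      (K.w i y).det.re⁻¹ : ℝ) : ℂ) • dua (K.w i y) s with hg
    have hg0 : ∀ y ∉ tsupport θ, g y = 0 := by
      intro y hy
      have : θ y = 0 := image_eq_zero_of_notMem_tsupport hy
      refine ext_ev fun t => ?_
      rw [hg]
      simp only [this, mul_zero, zero_mul, Complex.ofReal_zero]
      rw [ev_smul, zero_mul, ev_zero]
    have hgs : ∀ y, ContDiffAt ℝ ∞ g y := by
      intro y
      by_cases hy : y ∈ (K.e i).target
      · refine contDiffAt_ev fun t => ?_
        have e1 : (fun y => ev (g y) t) = fun y => ((ro volume m (z - y) * θ y *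
            Real.exp (K.φ i y) * (K.w i y).det.re⁻¹ : ℝ) : ℂ) * ev (dua (K.w i y) s) t := rfl
        rw [e1]
        refine ContDiffAt.mul ?_ (ev_dua_smooth (K.wsm i y hy) s t)
        refine (Complex.ofRealCLM.contDiff.contDiffAt).comp y ?_
        have hdet : ContDiffAt ℝ ∞ (fun y => (K.w i y).det.re) y :=
          (Complex.reCLM.contDiff.contDiffAt).comp y (det_smooth (K.wsm i y hy))
        refine ContDiffAt.mul (ContDiffAt.mul (ContDiffAt.mul ?_ hθ.contDiffAt) ?_) ?_
        · exact ((ro_smooth volume m).comp (contDiff_const.sub contDiff_id)).contDiffAt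
        · exact (K.φsm i y hy).exp
        · exact hdet.inv (det_real i hy).1.ne'
      · refine contDiffAt_const.congr_of_eventuallyEq (f := fun _ => 0) ?_
        have : (tsupport θ)ᶜ ∈ 𝓝 y := (isClosed_tsupport θ).isOpen_compl.mem_nhds
          fun h => hy (hθT h)
        filter_upwards [this] with y' hy' using hg0 y' hy'
    have hψ : K.Test (ext K i g) := ext_test i hθs.isCompact hθT hg0 hgs
    refine (h _ hψ).congr fun k => ?_
    rw [ip_loc h3 (hr k).form hψ.form (hr k).smooth hψ.smooth i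
      (fun x hx => dn_off_left (hrC k) fun hc => hx (hCs hc))]
    have hoff : ∀ y ∉ K.e i '' C, r k i y = 0 := by
      have := chart_off i (hr k).form (hrC k)
      rwa [inter_eq_left.2 hCs] at this
    have hcd : ContDiff ℝ ∞ (r k i) := contDiff_iff_contDiffAt.2
      (chart_smooth i (hr k).form (hr k).smooth hC (hrC k) hCs)
    have e2 : ∫ y in (K.e i).target, den K i (r k) (ext K i g) y * (K.w i y).det =
        ∫ y in (K.e i).target, (ro volume m (z - y) : ℂ) * ev (r k i y) s := by
      refine setIntegral_congr_fun (K.e i).open_target.measurableSet fun y hy => ?_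
      have hd := det_real i hy
      change (Real.exp (-K.φ i y) : ℂ) * hn (K.w i y) (r k i y) (ext K i g i y) *
        (K.w i y).det = _
      rw [ext_self i hθT hg0, hg]
      simp only
      rw [hn_smul_right, hn_dua (K.wpos i y hy), Complex.conj_ofReal,
        show ∀ a : ℂ, a * (K.w i y).det = a * ((K.w i y).det.re : ℂ) from fun a => by rw [hd.2]]
      by_cases hyC : y ∈ K.e i '' C
      · rw [hθ1 y hyC]
        have h5 : Real.exp (-K.φ i y) * Real.exp (K.φ i y) = 1 := by
          rw [← Real.exp_add]; simp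
        have h6 : (K.w i y).det.re⁻¹ * (K.w i y).det.re = 1 := inv_mul_cancel₀ hd.1.ne'
        have h7 : (Real.exp (-K.φ i y) : ℂ) * (Real.exp (K.φ i y) : ℂ) = 1 := by
          exact_mod_cast h5
        have h8 : (((K.w i y).det.re⁻¹ : ℝ) : ℂ) * ((K.w i y).det.re : ℂ) = 1 := by
          exact_mod_cast h6
        push_cast
        push_cast at h7 h8
        calc _ = ((ro volume m (z - y) : ℂ) * ev (r k i y) s) *
              (Complex.exp (-(K.φ i y : ℂ)) * Complex.exp (K.φ i y : ℂ)) *
              ((((K.w i y).det.re : ℂ))⁻¹ * ((K.w i y).det.re : ℂ)) := by ring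
          _ = _ := by rw [h7, h8, mul_one, mul_one]
      · rw [hoff y hyC, ev_zero]
        ring
    rw [e2]
    have e3 : ∫ y in (K.e i).target, (ro volume m (z - y) : ℂ) * ev (r k i y) s =
        ∫ y, (ro volume m (z - y) : ℂ) * ev (r k i y) s :=
      setIntegral_eq_integral_of_forall_compl_eq_zero fun y hy => by
        rw [hoff y fun h => hy (hST h), ev_zero, mul_zero]
    rw [e3, mo_apply']
    have hint : Integrable (fun y => ro volume m (z - y) • r k i y) := by
      have hc : Continuous fun y => ro volume m (z - y) • r k i y :=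
        ((ro_smooth volume m).continuous.comp (continuous_const.sub continuous_id)).smul
          hcd.continuous
      refine hc.integrable_of_hasCompactSupport (HasCompactSupport.intro hSc fun y hy => ?_)
      rw [hoff y hy]
      ext v
      simp
    have e4 := ((evL s).restrictScalars ℝ).integral_comp_comm hint
    refine Eq.trans ?_ e4
    refine integral_congr_ae (Eventually.of_forall fun y => ?_)
    change (ro volume m (z - y) : ℂ) * ev (r k i y) s = evL s (ro volume m (z - y) • r k i y)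
    rw [evL_apply]
    change _ = (ro volume m (z - y)) • ev (r k i y) s
    rw [Complex.real_smul]
  obtain ⟨B, hB, hBb⟩ := exists_ev_bd (n := n) (p := p)
  rw [tendsto_zero_iff_norm_tendsto_zero]
  have h9 : Tendsto (fun k => B * ∑ s, ‖ev (Mo volume m (r k i) z) s‖) atTop
      (𝓝 (B * ∑ _s : Fin p → Fin n, ‖(0 : ℂ)‖)) :=
    (tendsto_finsetSum _ fun s _ => (key s).norm).const_mul B
  simp only [norm_zero, Finset.sum_const_zero, mul_zero] at h9
  exact squeeze_zero (fun _ => norm_nonneg _) (fun k => hBb _) h9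

end Vale.Agent.P284.H419.K
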