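import Vale.Agent.P284.H419.K.Den
import Vale.Agent.P284.H286.K.Eng
import Vale.Agent.P284.H205.K.Main
import Vale.Agent.P284.H752.K1
import Vale.Agent.P284.H366.K.K7
import Vale.Agent.P284.H279.K.K2

/-!
# P284 (helper419), theorem K: the `L²` engine, unconditional
-/

open MeasureTheory

noncomputable section

namespace Vale.Agent.P284.H419.K

open Vale.Agent.P284.H608.K

/-- K3, unconditional -/
theorem k3Stmt (n : ℕ) (M : Type) [TopologicalSpace M] [T2Space M] [MeasurableSpace M]
    [BorelSpace M] (K : KA n M) : K3Stmt n M K :=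
  H205.K.k3_of H752.k1Stmt (H279.K.k2Adj_of H752.k1Stmt) (H279.K.k2BK_of H752.k1Stmt)
    (H279.K.k2BK0_of H752.k1Stmt) n M K

/-- the engine, unconditional -/
theorem engStmt : EngStmt :=
  H286.K.eng_of H752.k1Stmt k3Stmt (fun n M _ _ _ _ K => k45_of H752.k1Stmt (k3Stmt n M K))
    (fun n M _ _ _ _ K => k45z_of H752.k1Stmt (k3Stmt n M K))
    (fun n M _ _ _ _ _ K => H366.K.k7_of H752.k1Stmt (k3Stmt n M K))

end Vale.Agent.P284.H419.K
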