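import Vale.Agent.P284.H419.K.Int

/-!
# P284 (helper419), theorem K, density of test forms: extension of forms from a framed chart
-/

open scoped ContDiff Topology ComplexConjugate ComplexOrder ENNReal
open Filter Set MeasureTheory

set_option linter.unusedSectionVars false

noncomputable section

namespace Vale.Agent.P284.H419.K

open Vale.Agent.P272.K Vale.Agent.P284.H608.K

section local'

variable {n p : ℕ} {m : WithTop ℕ∞}

/-- the value of a form on arbitrary vectors -/
theorem apply_eq (A : Af n p) (v : Fin p → Cm n) :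
    A v = ∑ t : Fin p → Fin n, (∏ i, v i (t i)) * ev A t := by
  have h1 : v = fun i => ∑ j, (v i j) • (Pi.single j (1 : ℂ) : Cm n) := by
    funext i
    exact pi_eq_sum_univ' (v i)
  conv_lhs => rw [h1]
  have h2 := A.toMultilinearMap.map_sum (fun i j => (v i j) • (Pi.single j (1 : ℂ) : Cm n))
  refine h2.trans (Finset.sum_congr rfl fun t _ => ?_)
  have h3 := A.toMultilinearMap.map_smul_univ (fun i => v i (t i))
    (fun i => (Pi.single (t i) (1 : ℂ) : Cm n))
  exact h3

theorem apply_smooth {A : Cm n → Af n p} {v : Cm n → Fin p → Cm n} {z : Cm n}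
    (hA : ContDiffAt ℝ m A z) (hv : ∀ i j, ContDiffAt ℝ m (fun z => v z i j) z) :
    ContDiffAt ℝ m (fun z => A z (v z)) z := by
  simp only [apply_eq]
  exact ContDiffAt.sum fun t _ => (contDiffAt_prod fun i _ => hv i (t i)).mul (ev_smooth hA t)

theorem comp_smooth {A : Cm n → Af n p} {L : Cm n → Cm n →L[ℂ] Cm n} {z : Cm n}
    (hA : ContDiffAt ℝ m A z) (hL : ContDiffAt ℝ m L z) :
    ContDiffAt ℝ m (fun z => (A z).compContinuousLinearMap (L z)) z := by
  refine contDiffAt_ev fun s => ?_
  change ContDiffAt ℝ m (fun z => A z (fun i => L z (Pi.single (s i) 1))) z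
  refine apply_smooth hA fun i j => ?_
  have h1 : ContDiffAt ℝ m (fun z => L z (Pi.single (s i) 1)) z := by
    have h2 : ContDiff ℝ m (fun L : Cm n →L[ℂ] Cm n => L (Pi.single (s i) 1)) :=
      ((ContinuousLinearMap.apply ℂ (Cm n) (Pi.single (s i) (1 : ℂ) : Cm n)).restrictScalars
        ℝ).contDiff
    exact h2.contDiffAt.comp z hL
  exact contDiffAt_pi.1 h1 j

theorem real_smooth {V : Type} [NormedAddCommGroup V] [NormedSpace ℂ V] [CompleteSpace V] {f : Cm n → V} {z : Cm n}
    (h : AnalyticAt ℂ f z) : ContDiffAt ℝ m f z :=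
  (h.contDiffAt (n := m)).restrict_scalars ℝ

end local'

variable {n p : ℕ} {M : Type} [TopologicalSpace M] [T2Space M] [MeasurableSpace M] [BorelSpace M]
  {K : KA n M}

/-- the change of charts -/
def tr (K : KA n M) (j i : K.I) (z : Cm n) : Cm n := K.e i ((K.e j).symm z)

open Classical in
/-- the extension by `0` of a form in a framed chart -/
def ext (K : KA n M) (i : K.I) (u : Cm n → Af n p) : K.Fm p := fun j z =>
  if z ∈ (K.e j).target ∧ (K.e j).symm z ∈ (K.e i).source then
    K.a j i z • (u (tr K j i z)).compContinuousLinearMap (fderiv ℂ (tr K j i) z) else 0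

theorem ext_self (i : K.I) {u : Cm n → Af n p} {S : Set (Cm n)} (hS : S ⊆ (K.e i).target)
    (hu : ∀ z ∉ S, u z = 0) : ext K i u i = u := by
  funext z
  by_cases hz : z ∈ (K.e i).target
  · have hs : (K.e i).symm z ∈ (K.e i).source := (K.e i).map_target hz
    have h1 : tr K i i z = z := (K.e i).right_inv hz
    have h2 : fderiv ℂ (tr K i i) z = ContinuousLinearMap.id ℂ (Cm n) := by
      have h3 : tr K i i =ᶠ[𝓝 z] id := by
        filter_upwards [(K.e i).open_target.mem_nhds hz] with y hy using (K.e i).right_inv hy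
      rw [h3.fderiv_eq, fderiv_id]
    have h4 : K.a i i z = 1 := by
      have := K.aself i _ hs
      rwa [(K.e i).right_inv hz] at this
    rw [ext, if_pos ⟨hz, hs⟩, h1, h2, h4, one_smul]
    rfl
  · rw [ext, if_neg (fun h => hz h.1), hu z (fun h => hz (hS h))]

theorem ext_in (i j : K.I) (u : Cm n → Af n p) {x : M} (hj : x ∈ (K.e j).source)
    (hi : x ∈ (K.e i).source) : ext K i u j (K.e j x) =
      K.a j i (K.e j x) • (u (K.e i x)).compContinuousLinearMap (fderiv ℂ (tr K j i) (K.e j x)) := by
  have h1 : (K.e j).symm (K.e j x) = x := (K.e j).left_inv hj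
  rw [ext, if_pos ⟨(K.e j).map_source hj, by rw [h1]; exact hi⟩, tr, h1]

theorem ext_out (i j : K.I) (u : Cm n → Af n p) {x : M} (hj : x ∈ (K.e j).source)
    (hi : x ∉ (K.e i).source) : ext K i u j (K.e j x) = 0 := by
  have h1 : (K.e j).symm (K.e j x) = x := (K.e j).left_inv hj
  rw [ext, if_neg (fun h => hi (by have := h.2; rwa [h1] at this))]

theorem tr_an (j i : K.I) {z : Cm n} (hz : z ∈ (K.e j).target)
    (hi : (K.e j).symm z ∈ (K.e i).source) : AnalyticAt ℂ (tr K j i) z := K.hol j i z hz hi

theorem ext_form (i : K.I) (u : Cm n → Af n p) : K.IsForm (ext K i u) := by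
  refine ⟨fun j k x hj hk => ?_, fun j z hz => by rw [ext, if_neg (fun h => hz h.1)]⟩
  by_cases hi : x ∈ (K.e i).source
  · rw [ext_in i j u hj hi, ext_in i k u hk hi]
    have hzj := (K.e j).map_source hj
    have hxj : (K.e j).symm (K.e j x) = x := (K.e j).left_inv hj
    have hzk := (K.e k).map_source hk
    have hxk : (K.e k).symm (K.e k x) = x := (K.e k).left_inv hk
    have a1 : AnalyticAt ℂ (tr K j k) (K.e j x) := tr_an j k hzj (by rw [hxj]; exact hk)
    have a2 : AnalyticAt ℂ (tr K k i) (K.e k x) := tr_an k i hzk (by rw [hxk]; exact hi)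
    have e1 : tr K j k (K.e j x) = K.e k x := by rw [tr, hxj]
    have e2 : tr K j i =ᶠ[𝓝 (K.e j x)] (tr K k i) ∘ (tr K j k) := by
      have hc : ContinuousAt (K.e j).symm (K.e j x) := (K.e j).continuousAt_symm hzj
      have h5 : (K.e k).source ∈ 𝓝 ((K.e j).symm (K.e j x)) := by
        rw [hxj]; exact (K.e k).open_source.mem_nhds hk
      filter_upwards [hc.preimage_mem_nhds h5] with y hy
      simp only [tr, Function.comp_apply]
      rw [(K.e k).left_inv hy]
    have e3 : fderiv ℂ (tr K j i) (K.e j x) =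
        (fderiv ℂ (tr K k i) (K.e k x)).comp (fderiv ℂ (tr K j k) (K.e j x)) := by
      rw [e2.fderiv_eq, fderiv_comp _ (by rw [e1]; exact a2.differentiableAt) a1.differentiableAt,
        e1]
    rw [e3, K.coc j k i x hj hk hi, mul_smul]
    rfl
  · rw [ext_out i j u hj hi, ext_out i k u hk hi]
    ext v
    simp

theorem ext_smooth (i : K.I) {u : Cm n → Af n p} {S : Set (Cm n)} (hSc : IsCompact S)
    (hS : S ⊆ (K.e i).target) (hu : ∀ z ∉ S, u z = 0) (hs : ∀ z, ContDiffAt ℝ ∞ u z) :
    K.Smooth (ext K i u) := by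
  intro j z hz
  have hc : ContinuousAt (K.e j).symm z := (K.e j).continuousAt_symm hz
  by_cases hi : (K.e j).symm z ∈ (K.e i).source
  · have a1 : AnalyticAt ℂ (tr K j i) z := tr_an j i hz hi
    have e1 : ext K i u j =ᶠ[𝓝 z] fun z => K.a j i z •
        (u (tr K j i z)).compContinuousLinearMap (fderiv ℂ (tr K j i) z) := by
      filter_upwards [(K.e j).open_target.mem_nhds hz,
        hc.preimage_mem_nhds ((K.e i).open_source.mem_nhds hi)] with y h1 h2
      rw [ext, if_pos ⟨h1, h2⟩]
    refine ContDiffAt.congr_of_eventuallyEq ?_ e1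
    refine contDiffAt_ev fun s => ?_
    simp only [ev_smul]
    refine (real_smooth (K.ahol j i z hz hi)).mul (ev_smooth ?_ s)
    exact comp_smooth ((hs _).comp z (real_smooth a1)) (real_smooth a1.fderiv)
  · set C : Set M := (K.e i).symm '' S with hC
    have hCc : IsCompact C := hSc.image_of_continuousOn ((K.e i).continuousOn_symm.mono hS)
    have hzC : (K.e j).symm z ∉ C := by
      rintro ⟨y, hy, hy2⟩
      exact hi (by rw [← hy2]; exact (K.e i).map_target (hS hy))
    have e1 : ext K i u j =ᶠ[𝓝 z] fun _ => 0 := by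
      filter_upwards [hc.preimage_mem_nhds (hCc.isClosed.isOpen_compl.mem_nhds hzC)] with y hy
      rw [ext]
      split_ifs with h
      · have h2 : u (tr K j i y) = 0 := by
          refine hu _ fun h3 => hy ⟨_, h3, ?_⟩
          rw [tr, (K.e i).left_inv h.2]
        rw [h2]
        ext v
        simp
      · rfl
    exact contDiffAt_const.congr_of_eventuallyEq e1

theorem ext_off (i : K.I) {u : Cm n → Af n p} {S : Set (Cm n)}
    (hu : ∀ z ∉ S, u z = 0) : K.Off ((K.e i).symm '' S) (ext K i u) := by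
  intro j x hj hx
  by_cases hi : x ∈ (K.e i).source
  · have h2 : u (K.e i x) = 0 := by
      refine hu _ fun h3 => hx ⟨_, h3, (K.e i).left_inv hi⟩
    rw [ext_in i j u hj hi, h2]
    ext v
    simp
  · exact ext_out i j u hj hi

theorem ext_test (i : K.I) {u : Cm n → Af n p} {S : Set (Cm n)} (hSc : IsCompact S)
    (hS : S ⊆ (K.e i).target) (hu : ∀ z ∉ S, u z = 0) (hs : ∀ z, ContDiffAt ℝ ∞ u z) :
    K.Test (ext K i u) :=
  ⟨ext_form i u, ext_smooth i hSc hS hu hs, _,
    hSc.image_of_continuousOn ((K.e i).continuousOn_symm.mono hS), ext_off i hu⟩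

/-- a test form with support in the chart, in the chart -/
theorem chart_off (i : K.I) {η : K.Fm p} (hη : K.IsForm η) {C : Set M} (hC : K.Off C η) :
    ∀ z ∉ K.e i '' (C ∩ (K.e i).source), η i z = 0 := by
  intro z hz
  by_cases hzt : z ∈ (K.e i).target
  · have h1 := hC i ((K.e i).symm z) ((K.e i).map_target hzt) (fun h => hz
      ⟨_, ⟨h, (K.e i).map_target hzt⟩, (K.e i).right_inv hzt⟩)
    rwa [(K.e i).right_inv hzt] at h1
  · exact hη.off i z hzt

theorem chart_smooth (i : K.I) {η : K.Fm p} (hη : K.IsForm η) (hs : K.Smooth η) {C : Set M}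
    (hCc : IsCompact C) (hC : K.Off C η) (hCs : C ⊆ (K.e i).source) (z : Cm n) :
    ContDiffAt ℝ ∞ (η i) z := by
  by_cases hzt : z ∈ (K.e i).target
  · exact hs i z hzt
  · have hSc : IsCompact (K.e i '' (C ∩ (K.e i).source)) := by
      rw [inter_eq_left.2 hCs]
      exact hCc.image_of_continuousOn ((K.e i).continuousOn.mono hCs)
    have hz : z ∉ K.e i '' (C ∩ (K.e i).source) := by
      rintro ⟨x, hx, rfl⟩
      exact hzt ((K.e i).map_source hx.2)
    refine contDiffAt_const.congr_of_eventuallyEq (f := fun _ => 0) ?_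
    filter_upwards [hSc.isClosed.isOpen_compl.mem_nhds hz] with y hy
    exact chart_off i hη hC y hy

/-- two forms which are supported in a chart and agree there are equal -/
theorem form_eq {η ζ : K.Fm p} (hη : K.IsForm η) (hζ : K.IsForm ζ) (i : K.I) {C : Set M}
    (hCs : C ⊆ (K.e i).source) (h1 : K.Off C η) (h2 : K.Off C ζ) (h : η i = ζ i) : η = ζ := by
  funext j z
  by_cases hz : z ∈ (K.e j).target
  · have hx := (K.e j).map_target hz
    have hr := (K.e j).right_inv hz
    by_cases hxC : (K.e j).symm z ∈ C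
    · have h3 := hη.change j i _ hx (hCs hxC)
      have h4 := hζ.change j i _ hx (hCs hxC)
      rw [hr] at h3 h4
      rw [h3, h4, h]
    · have h3 := h1 j _ hx hxC
      have h4 := h2 j _ hx hxC
      rw [hr] at h3 h4
      rw [h3, h4]
  · rw [hη.off j z hz, hζ.off j z hz]

end Vale.Agent.P284.H419.K
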