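import Vale.Agent.P299.H863.Comm

/-!
# P284 (helper419), theorem K, density of test forms: mollification and first order operators
-/

open scoped ContDiff Topology ENNReal
open Filter Set MeasureTheory

set_option linter.unusedSectionVars false

noncomputable section

namespace Vale.Agent.P284.H419.K

open Vale.Agent.P363.R.Sob Vale.Agent.P299.H863

section

variable {E : Type} [NormedAddCommGroup E] [NormedSpace ℝ E] [FiniteDimensional ℝ E]
  [MeasurableSpace E] [BorelSpace E]
variable {V W : Type} [NormedAddCommGroup V] [NormedSpace ℝ V] [CompleteSpace V]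
  [NormedAddCommGroup W] [NormedSpace ℝ W] [CompleteSpace W]
variable (μ : Measure E) [μ.IsAddHaarMeasure]

/-- the mollification -/
def Mo (m : ℕ) (u : E → V) : E → V := moll μ (stdBump m) u

/-- the density of the mollification -/
def ro (m : ℕ) : E → ℝ := (stdBump m : ContDiffBump (0 : E)).normed μ

theorem ro_nonneg (m : ℕ) (z : E) : 0 ≤ ro μ m z := (stdBump m).nonneg_normed z

theorem ro_smooth (m : ℕ) : ContDiff ℝ ∞ (ro μ m : E → ℝ) := (stdBump m).contDiff_normed

theorem ro_supp (m : ℕ) : HasCompactSupport (ro μ m : E → ℝ) := (stdBump m).hasCompactSupport_normed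

theorem ro_lint (m : ℕ) : ∫⁻ z, ENNReal.ofReal (ro μ m z : ℝ) ∂μ = 1 := by
  unfold ro
  rw [← ofReal_integral_eq_lintegral_ofReal (stdBump m : ContDiffBump (0 : E)).integrable_normed
        (Eventually.of_forall fun x => (stdBump m : ContDiffBump (0 : E)).nonneg_normed x),
    (stdBump m : ContDiffBump (0 : E)).integral_normed, ENNReal.ofReal_one]

theorem mo_apply (m : ℕ) (u : E → V) (x : E) : Mo μ m u x = ∫ z, ro μ m z • u (x - z) ∂μ := rfl

theorem mo_apply' (m : ℕ) (u : E → V) (x : E) : Mo μ m u x = ∫ z, ro μ m (x - z) • u z ∂μ :=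
  moll_apply' _ _ _

variable {μ}

theorem int_mo (m : ℕ) {u : E → V} (hu : Continuous u) (x : E) :
    Integrable (fun z => ro μ m z • u (x - z)) μ := by
  have h1 : Continuous fun z => ro μ m z • u (x - z) :=
    (ro_smooth μ m).continuous.smul (hu.comp (continuous_const.sub continuous_id))
  exact h1.integrable_of_hasCompactSupport ((ro_supp μ m).smul_right)

theorem mo_sub (m : ℕ) {u v : E → V} (hu : Continuous u) (hv : Continuous v) :
    Mo μ m (u - v) = Mo μ m u - Mo μ m v := by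
  funext x
  rw [Pi.sub_apply, mo_apply, mo_apply, mo_apply, ← integral_sub (int_mo m hu x) (int_mo m hv x)]
  refine integral_congr_ae (Eventually.of_forall fun z => ?_)
  simp only [Pi.sub_apply, smul_sub]

theorem mo_add (m : ℕ) {u v : E → V} (hu : Continuous u) (hv : Continuous v) :
    Mo μ m (u + v) = Mo μ m u + Mo μ m v := by
  funext x
  rw [Pi.add_apply, mo_apply, mo_apply, mo_apply, ← integral_add (int_mo m hu x) (int_mo m hv x)]
  refine integral_congr_ae (Eventually.of_forall fun z => ?_)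
  simp only [Pi.add_apply, smul_add]

theorem mo_smooth (m : ℕ) {u : E → V} (hu : Continuous u) : ContDiff ℝ ∞ (Mo μ m u) :=
  moll_contDiff _ hu.locallyIntegrable

theorem mo_supp (m : ℕ) {u : E → V} (hu : HasCompactSupport u) : HasCompactSupport (Mo μ m u) :=
  moll_hasCompactSupport _ hu

/-- mollification is a contraction of `L²` -/
theorem mo_le (m : ℕ) {u : E → V} (hu : Continuous u) :
    eLpNorm (Mo μ m u) 2 μ ≤ eLpNorm u 2 μ := by
  have hg : Measurable (fun z : E => ENNReal.ofReal (ro μ m z)) :=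
    (ro_smooth μ m).continuous.measurable.ennreal_ofReal
  have h1 := eLpNorm_kernel_le (μ := μ) (V := V) (W := V) (k := fun _ z => ro μ m z •
    ContinuousLinearMap.id ℝ V) hg (fun x z => by
      have h2 : ‖ro μ m z • ContinuousLinearMap.id ℝ V‖ ≤ ro μ m z := by
        rw [norm_smul, Real.norm_of_nonneg (ro_nonneg μ m z)]
        exact mul_le_of_le_one_right (ro_nonneg μ m z) ContinuousLinearMap.norm_id_le
      rw [← ofReal_norm]
      exact ENNReal.ofReal_le_ofReal h2) hu.stronglyMeasurable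
  rw [ro_lint, one_mul] at h1
  exact h1

theorem mo_tendsto {u : E → V} (hu : Continuous u) (hs : HasCompactSupport u) :
    Tendsto (fun m => eLpNorm (Mo μ m u - u) 2 μ) atTop (𝓝 0) := by
  have : Fact ((1 : ℝ≥0∞) ≤ 2) := ⟨by norm_num⟩
  exact tendsto_moll_std (by norm_num) (hu.memLp_of_hasCompactSupport hs)

/-- the derivative of the mollification -/
theorem fderiv_mo (m : ℕ) {u : E → V} (hu : ContDiff ℝ ∞ u) (x v : E) :
    fderiv ℝ (Mo μ m u) x v = Mo μ m (fun y => fderiv ℝ u y v) x := by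
  have hud : ContDiff ℝ ∞ (fun y => fderiv ℝ u y v) :=
    (hu.fderiv_right (m := ∞) (by simp)).clm_apply contDiff_const
  have hwd : IsWD μ v u (fun y => fderiv ℝ u y v) :=
    isWD_of_differentiable hu.continuous
      (fun x => ((hu.differentiable (by simp)) x).hasFDerivAt.hasLineDerivAt v)
      hud.continuous.locallyIntegrable
  exact fderiv_moll _ hwd hu.continuous.locallyIntegrable x

/-- Cauchy sequences in `L²` -/
def CS (μ : Measure E) (u : ℕ → E → V) : Prop :=
  Tendsto (fun q : ℕ × ℕ => eLpNorm (u q.1 - u q.2) 2 μ) atTop (𝓝 0)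

theorem CS.ev {u : ℕ → E → V} (h : CS μ u) {C : ℝ≥0∞} (hC : C ≠ ⊤) {ε : ℝ≥0∞} (hε : 0 < ε) :
    ∃ k₀, ∀ k l, k₀ ≤ k → k₀ ≤ l → C * eLpNorm (u k - u l) 2 μ ≤ ε := by
  have h1 : Tendsto (fun q : ℕ × ℕ => C * eLpNorm (u q.1 - u q.2) 2 μ) atTop (𝓝 0) := by
    have := ENNReal.Tendsto.const_mul h (Or.inr hC)
    rwa [mul_zero] at this
  have h2 := (ENNReal.tendsto_nhds_zero.1 h1) ε hε
  rw [eventually_atTop_prod_self'] at h2
  obtain ⟨a, ha⟩ := h2
  exact ⟨a, fun k l hk hl => ha k hk l hl⟩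

/-- the mollification of a Cauchy sequence -/
theorem mo_unif {u : ℕ → E → V} (h : CS μ u) (hc : ∀ k, Continuous (u k))
    (hs : ∀ k, HasCompactSupport (u k)) {ε : ℝ≥0∞} (hε : 0 < ε) :
    ∀ᶠ m in atTop, ∀ᶠ k in atTop, eLpNorm (Mo μ m (u k) - u k) 2 μ ≤ ε := by
  obtain ⟨k₀, hk₀⟩ := h.ev (C := 2) (by norm_num) (ε := ε / 2) (ENNReal.half_pos hε.ne')
  have h2 := (ENNReal.tendsto_nhds_zero.1 (mo_tendsto (μ := μ) (hc k₀) (hs k₀))) (ε / 2)
    (ENNReal.half_pos hε.ne')
  filter_upwards [h2] with m hm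
  filter_upwards [eventually_ge_atTop k₀] with k hk
  have e1 : Mo μ m (u k) - u k = (Mo μ m (u k - u k₀) - (u k - u k₀)) + (Mo μ m (u k₀) - u k₀) := by
    rw [mo_sub m (hc k) (hc k₀)]
    abel
  have hcs : Continuous (u k - u k₀) := (hc k).sub (hc k₀)
  have m1 : AEStronglyMeasurable (Mo μ m (u k - u k₀)) μ :=
    (mo_smooth m hcs).continuous.aestronglyMeasurable
  rw [e1]
  calc eLpNorm ((Mo μ m (u k - u k₀) - (u k - u k₀)) + (Mo μ m (u k₀) - u k₀)) 2 μ
      ≤ eLpNorm (Mo μ m (u k - u k₀) - (u k - u k₀)) 2 μ +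
          eLpNorm (Mo μ m (u k₀) - u k₀) 2 μ :=
        eLpNorm_add_le (m1.sub hcs.aestronglyMeasurable)
          (((mo_smooth m (hc k₀)).continuous.sub (hc k₀)).aestronglyMeasurable) (by norm_num)
    _ ≤ (eLpNorm (Mo μ m (u k - u k₀)) 2 μ + eLpNorm (u k - u k₀) 2 μ) + ε / 2 := by
        gcongr
        exact eLpNorm_sub_le m1 hcs.aestronglyMeasurable (by norm_num)
    _ ≤ (eLpNorm (u k - u k₀) 2 μ + eLpNorm (u k - u k₀) 2 μ) + ε / 2 := by
        gcongr
        exact mo_le m hcs
    _ = 2 * eLpNorm (u k - u k₀) 2 μ + ε / 2 := by rw [two_mul]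
    _ ≤ ε / 2 + ε / 2 := by gcongr; exact hk₀ k k₀ hk le_rfl
    _ = ε := ENNReal.add_halves ε

end

end Vale.Agent.P284.H419.K
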