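import Vale.Agent.P284.H419.K.Bas
import Vale.Agent.P272.K.C2.Mat
import Mathlib.MeasureTheory.Function.LpSpace.Basic
import Mathlib.MeasureTheory.Integral.DominatedConvergence
import Mathlib.MeasureTheory.Measure.WithDensityFinite

/-!
# P284 (helper419), theorem K, density of test forms: integrals in one framed chart
-/

open scoped ContDiff Topology ComplexConjugate ComplexOrder ENNReal
open Filter Set MeasureTheory

set_option linter.unusedSectionVars false

noncomputable section

namespace Vale.Agent.P284.H419.K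

open Vale.Agent.P272.K Vale.Agent.P284.H608.K

section local'

variable {n p : ℕ} {m : WithTop ℕ∞}

theorem ev_smooth {A : Cm n → Af n p} {z : Cm n} (hA : ContDiffAt ℝ m A z) (s : Fin p → Fin n) :
    ContDiffAt ℝ m (fun z => ev (A z) s) z :=
  (((evL s).restrictScalars ℝ).contDiff.contDiffAt).comp z hA

theorem conj_smooth {f : Cm n → ℂ} {z : Cm n} (hf : ContDiffAt ℝ m f z) :
    ContDiffAt ℝ m (fun z => conj (f z)) z :=
  (Complex.conjCLE.contDiff.contDiffAt).comp z hf

theorem hn_smooth {w : Cm n → Matrix (Fin n) (Fin n) ℂ} {A B : Cm n → Af n p} {z : Cm n}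
    (hw : ∀ j k, ContDiffAt ℝ m (fun z => w z j k) z) (hd : (w z).det ≠ 0)
    (hA : ContDiffAt ℝ m A z) (hB : ContDiffAt ℝ m B z) :
    ContDiffAt ℝ m (fun z => hn (w z) (A z) (B z)) z := by
  have hi : C2.MC m (fun z => (w z)⁻¹) z := C2.MC.inv (A := w) hw hd
  refine contDiffAt_const.mul (ContDiffAt.sum fun s _ => ContDiffAt.sum fun t _ => ?_)
  refine ((ev_smooth hA s).mul (conj_smooth (ev_smooth hB t))).mul ?_
  exact contDiffAt_prod fun i _ => hi _ _

theorem exp_smooth {φ : Cm n → ℝ} {z : Cm n} (hφ : ContDiffAt ℝ m φ z) :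
    ContDiffAt ℝ m (fun z => (Real.exp (-φ z) : ℂ)) z :=
  (Complex.ofRealCLM.contDiff.contDiffAt).comp z hφ.neg.exp

theorem det_smooth {w : Cm n → Matrix (Fin n) (Fin n) ℂ} {z : Cm n}
    (hw : ∀ j k, ContDiffAt ℝ m (fun z => w z j k) z) : ContDiffAt ℝ m (fun z => (w z).det) z :=
  C2.MC.det (A := w) hw

end local'

variable {n p : ℕ} {M : Type} [TopologicalSpace M] [T2Space M] [MeasurableSpace M] [BorelSpace M]
  {K : KA n M}

/-- the density in a framed chart -/
def den (K : KA n M) (i : K.I) (η ζ : K.Fm p) (z : Cm n) : ℂ :=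
  (Real.exp (-K.φ i z) : ℂ) * hn (K.w i z) (η i z) (ζ i z)

theorem den_smooth {η ζ : K.Fm p} (hη : K.Smooth η) (hζ : K.Smooth ζ) (i : K.I) {z : Cm n}
    (hz : z ∈ (K.e i).target) : ContDiffAt ℝ ∞ (den K i η ζ) z :=
  (exp_smooth (K.φsm i z hz)).mul (hn_smooth (K.wsm i z hz) (K.wpos i z hz).det_pos.ne'
    (hη i z hz) (hζ i z hz))

theorem det_real (i : K.I) {z : Cm n} (hz : z ∈ (K.e i).target) :
    0 < (K.w i z).det.re ∧ (((K.w i z).det.re : ℝ) : ℂ) = (K.w i z).det := by
  have h := Complex.pos_iff.1 (K.wpos i z hz).det_pos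
  refine ⟨h.1, Complex.ext (by simp) (by simp; exact h.2)⟩

theorem dn_cont (h3 : K3Stmt n M K) {η ζ : K.Fm p} (hη : K.IsForm η) (hζ : K.IsForm ζ)
    (sη : K.Smooth η) (sζ : K.Smooth ζ) : Continuous (K.dn η ζ) := by
  rw [continuous_iff_continuousAt]
  intro x
  obtain ⟨i, hi⟩ := K.cover x
  have h1 : K.dn η ζ =ᶠ[𝓝 x] fun x' => den K i η ζ (K.e i x') := by
    filter_upwards [(K.e i).open_source.mem_nhds hi] with x' hx'
    exact h3.dn_eq p η ζ hη hζ i x' hx'
  refine ContinuousAt.congr ?_ h1.symm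
  exact ContinuousAt.comp (f := K.e i) (g := den K i η ζ)
    (den_smooth sη sζ i ((K.e i).map_source hi)).continuousAt ((K.e i).continuousAt hi)

/-- integrals of functions with support in one chart -/
theorem int_chart (i : K.I) {F : Type} [NormedAddCommGroup F] [NormedSpace ℝ F]
    {f : M → F} (hf : AEStronglyMeasurable f K.μ) (h0 : ∀ x ∉ (K.e i).source, f x = 0) :
    ∫ x, f x ∂K.μ = ∫ z in (K.e i).target, (K.w i z).det.re • f ((K.e i).symm z) := by
  classical
  by_cases hne : (K.e i).source.Nonempty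
  swap
  · have h1 : (K.e i).source = ∅ := not_nonempty_iff_eq_empty.1 hne
    have h2 : (K.e i).target = ∅ := by
      rw [← (K.e i).image_source_eq_target, h1, image_empty]
    have h3 : ∀ x, f x = 0 := fun x => h0 x (by rw [h1]; exact notMem_empty x)
    simp [h3, h2]
  obtain ⟨x₀, hx₀⟩ := hne
  set T := (K.e i).target with hT
  have hTo : IsOpen T := (K.e i).open_target
  have hTm : MeasurableSet T := hTo.measurableSet
  set g : Cm n → M := T.piecewise (K.e i).symm fun _ => x₀ with hg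
  have hgm : Measurable g := ContinuousOn.measurable_piecewise (K.e i).continuousOn_symm
    continuousOn_const hTm
  set D : Cm n → ℝ≥0∞ := fun z => ENNReal.ofReal (K.w i z).det.re with hD
  have hDc : ContinuousOn (fun z => (K.w i z).det.re) T := fun z hz =>
    (Complex.continuous_re.continuousAt.comp (det_smooth (m := ∞) (K.wsm i z hz)).continuousAt
      ).continuousWithinAt
  have hDm : AEMeasurable D (volume.restrict T) :=
    (hDc.aemeasurable hTm).ennreal_ofReal
  have key : K.μ.restrict (K.e i).source = ((volume.restrict T).withDensity D).map g := by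
    refine Measure.ext fun A hA => ?_
    rw [Measure.restrict_apply hA, Measure.map_apply hgm hA,
      withDensity_apply _ (hgm hA), ← lintegral_indicator_one (hA.inter
        (K.e i).open_source.measurableSet)]
    rw [K.hμ i _ (measurable_one.indicator (hA.inter (K.e i).open_source.measurableSet))
      (fun x hx => indicator_of_notMem (fun h => hx h.2) _)]
    rw [← lintegral_indicator (hgm hA)]
    refine setLIntegral_congr_fun hTm fun z hz => ?_
    have h5 : g z = (K.e i).symm z := piecewise_eq_of_mem _ _ _ hz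
    have h6 : (K.e i).symm z ∈ (K.e i).source := (K.e i).map_target hz
    by_cases hz2 : (K.e i).symm z ∈ A
    · rw [indicator_of_mem (show (K.e i).symm z ∈ A ∩ (K.e i).source from ⟨hz2, h6⟩),
        indicator_of_mem (show z ∈ g ⁻¹' A by rw [mem_preimage, h5]; exact hz2), Pi.one_apply,
        one_mul]
    · rw [indicator_of_notMem (fun h => hz2 h.1), indicator_of_notMem (fun h => hz2 (by
        rw [mem_preimage, h5] at h; exact h)), zero_mul]
  have e1 : ∫ x, f x ∂K.μ = ∫ x in (K.e i).source, f x ∂K.μ :=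
    (setIntegral_eq_integral_of_forall_compl_eq_zero h0).symm
  rw [e1, key, integral_map hgm.aemeasurable (by rw [← key]; exact hf.restrict),
    integral_withDensity_eq_integral_toReal_smul₀ hDm
      (Eventually.of_forall fun _ => ENNReal.ofReal_lt_top)]
  refine setIntegral_congr_fun hTm fun z hz => ?_
  have h5 : g z = (K.e i).symm z := piecewise_eq_of_mem _ _ _ hz
  simp only [h5, hD, ENNReal.toReal_ofReal (det_real i hz).1.le]

/-- the product of two forms, one of them with support in a framed chart -/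
theorem ip_loc (h3 : K3Stmt n M K) {η ζ : K.Fm p} (hη : K.IsForm η) (hζ : K.IsForm ζ)
    (sη : K.Smooth η) (sζ : K.Smooth ζ) (i : K.I)
    (h0 : ∀ x ∉ (K.e i).source, K.dn η ζ x = 0) :
    K.ip η ζ = ∫ z in (K.e i).target, den K i η ζ z * (K.w i z).det := by
  rw [KA.ip, int_chart i (dn_cont h3 hη hζ sη sζ).aestronglyMeasurable h0]
  refine setIntegral_congr_fun (K.e i).open_target.measurableSet fun z hz => ?_
  have h1 := h3.dn_eq p η ζ hη hζ i _ ((K.e i).map_target hz)
  rw [(K.e i).right_inv hz] at h1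
  show (K.w i z).det.re • K.dn η ζ ((K.e i).symm z) = den K i η ζ z * (K.w i z).det
  rw [h1, ← (det_real i hz).2, Complex.real_smul, den, mul_comm]
  simp only [Complex.ofReal_re]

theorem dn_off {η ζ : K.Fm p} {x : M} (h : η (K.ix x) (K.e (K.ix x) x) = 0 ∨
    ζ (K.ix x) (K.e (K.ix x) x) = 0) : K.dn η ζ x = 0 := by
  rcases h with h | h
  · rw [KA.dn, h, hn_zero_left, mul_zero]
  · rw [KA.dn, h, hn_zero_right, mul_zero]

theorem mem_ix (x : M) : x ∈ (K.e (K.ix x)).source := (K.cover x).choose_spec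

theorem dn_off_left {η ζ : K.Fm p} {C : Set M} (h : K.Off C η) {x : M} (hx : x ∉ C) :
    K.dn η ζ x = 0 := dn_off (Or.inl (h _ x (mem_ix x) hx))

theorem dn_off_right {η ζ : K.Fm p} {C : Set M} (h : K.Off C ζ) {x : M} (hx : x ∉ C) :
    K.dn η ζ x = 0 := dn_off (Or.inr (h _ x (mem_ix x) hx))

/-! ### the norm -/

theorem dn_self (h1 : K1Stmt) (η : K.Fm p) (x : M) :
    K.dn η η x = ((K.dn η η x).re : ℂ) ∧ 0 ≤ (K.dn η η x).re := by
  have hz := (K.e (K.ix x)).map_source (mem_ix (K := K) x)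
  have h2 := hn_self h1 (K.wpos (K.ix x) _ hz) (η (K.ix x) (K.e (K.ix x) x))
  have h4 := nn_nonneg h1 (K.wpos (K.ix x) _ hz) (η (K.ix x) (K.e (K.ix x) x))
  rw [KA.dn, h2, ← Complex.ofReal_mul]
  simp only [Complex.ofReal_re]
  exact ⟨trivial, mul_nonneg (Real.exp_nonneg _) h4⟩

theorem nq_eq (h1 : K1Stmt) (h3 : K3Stmt n M K) {η : K.Fm p} (hη : K.Test η) :
    K.nq η = (K.nl η).toReal ∧ K.nl η ≠ ⊤ := by
  have hi := (h3.int p η η hη hη.form hη.smooth).1
  have e1 : K.nq η = ∫ x, (K.dn η η x).re ∂K.μ := by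
    rw [KA.nq, KA.ip]
    exact (integral_re hi).symm
  have hire : Integrable (fun x => (K.dn η η x).re) K.μ := hi.re
  refine ⟨?_, ?_⟩
  · rw [e1, integral_eq_lintegral_of_nonneg_ae (Eventually.of_forall fun x =>
      (dn_self h1 η x).2) hire.aestronglyMeasurable]
    rfl
  · have h2 := hire.2
    rw [hasFiniteIntegral_iff_ofReal (Eventually.of_forall fun x => (dn_self h1 η x).2)] at h2
    exact h2.ne

theorem nq_nonneg (h1 : K1Stmt) (h3 : K3Stmt n M K) {η : K.Fm p} (hη : K.Test η) :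
    0 ≤ K.nq η := by
  rw [(nq_eq h1 h3 hη).1]
  exact ENNReal.toReal_nonneg

/-- the `L²` norm in the chart -/
theorem nl_loc (h3 : K3Stmt n M K) {η : K.Fm p} (hη : K.IsForm η) (sη : K.Smooth η) (i : K.I)
    {C : Set M} (hC : K.Off C η) (hCs : C ⊆ (K.e i).source) :
    K.nl η = ∫⁻ z in (K.e i).target, ENNReal.ofReal ((den K i η η z).re * (K.w i z).det.re) := by
  have hm : Measurable fun x => ENNReal.ofReal (K.dn η η x).re :=
    ENNReal.measurable_ofReal.comp (Complex.measurable_re.comp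
      (dn_cont h3 hη hη sη sη).measurable)
  rw [KA.nl, K.hμ i _ hm (fun x hx => by
    rw [dn_off_left hC fun h => hx (hCs h)]; simp)]
  refine setLIntegral_congr_fun (K.e i).open_target.measurableSet fun z hz => ?_
  have h1 := h3.dn_eq p η η hη hη i _ ((K.e i).map_target hz)
  rw [(K.e i).right_inv hz] at h1
  show ENNReal.ofReal (K.dn η η ((K.e i).symm z)).re * ENNReal.ofReal (K.w i z).det.re = _
  rw [h1, ← ENNReal.ofReal_mul' (det_real i hz).1.le]
  rfl

/-- comparison of the norms on a compact set -/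
theorem cmp (h1 : K1Stmt) (K : KA n M) (p : ℕ) (i : K.I) {S : Set (Cm n)} (hS : IsCompact S)
    (hST : S ⊆ (K.e i).target) : ∃ c C : ℝ, 0 < c ∧ 0 < C ∧ ∀ z ∈ S, ∀ A : Af n p,
      c * ‖A‖ ^ 2 ≤ (Real.exp (-K.φ i z) * nn (K.w i z) A) * (K.w i z).det.re ∧
      (Real.exp (-K.φ i z) * nn (K.w i z) A) * (K.w i z).det.re ≤ C * ‖A‖ ^ 2 := by
  set Φ : Cm n × Af n p → ℝ := fun q => (Real.exp (-K.φ i q.1) * nn (K.w i q.1) q.2) *
    (K.w i q.1).det.re with hΦ
  have hc : ContinuousOn Φ ((K.e i).target ×ˢ univ) := by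
    have h1 : ∀ q ∈ (K.e i).target ×ˢ (univ : Set (Af n p)), ContinuousAt Φ q := by
      rintro ⟨z, A⟩ ⟨hz, -⟩
      have hw := fun j k => (K.wsm i z hz j k).continuousAt
      have hfst : ∀ {G : Type} [TopologicalSpace G] {f : Cm n → G}, ContinuousAt f z →
          ContinuousAt (fun q : Cm n × Af n p => f q.1) (z, A) := fun hf =>
        ContinuousAt.comp (f := Prod.fst) (x := (z, A)) hf continuousAt_fst
      have hi : C2.MC 0 (fun z => (K.w i z)⁻¹) z := C2.MC.inv (A := K.w i)
        (fun j k => (K.wsm i z hz j k).of_le (by simp)) (K.wpos i z hz).det_pos.ne'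
      refine ContinuousAt.mul (ContinuousAt.mul ?_ ?_) ?_
      · exact hfst (K.φsm i z hz).continuousAt.neg.rexp
      · refine Complex.continuous_re.continuousAt.comp ?_
        unfold hn
        refine continuousAt_const.mul (tendsto_finsetSum _ fun s _ => tendsto_finsetSum _ fun t _ => ?_)
        have h5 : ∀ s, ContinuousAt (fun q : Cm n × Af n p => ev q.2 s) (z, A) := fun s =>
          ((evL s).continuous.comp continuous_snd).continuousAt
        refine ContinuousAt.mul (ContinuousAt.mul (h5 s) ?_) ?_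
        · exact Complex.continuous_conj.continuousAt.comp (h5 t)
        · exact tendsto_finsetProd _ fun j _ => hfst (hi _ _).continuousAt
      · exact hfst (Complex.continuous_re.continuousAt.comp
          (det_smooth (m := ∞) (K.wsm i z hz)).continuousAt)
    exact fun q hq => (h1 q hq).continuousWithinAt
  have hSp : IsCompact (Metric.sphere (0 : Af n p) 1) := by
    have : ProperSpace (Af n p) := FiniteDimensional.proper ℝ _
    exact isCompact_sphere _ _
  have hcc : IsCompact (S ×ˢ Metric.sphere (0 : Af n p) 1) := hS.prod hSp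
  have hsub : S ×ˢ Metric.sphere (0 : Af n p) 1 ⊆ (K.e i).target ×ˢ univ :=
    prod_mono hST (subset_univ _)
  have hpos : ∀ q ∈ S ×ˢ Metric.sphere (0 : Af n p) 1, 0 < Φ q := by
    rintro ⟨z, A⟩ ⟨hz, hA⟩
    have hA0 : A ≠ 0 := by
      intro h
      rw [h] at hA
      simp at hA
    exact mul_pos (mul_pos (Real.exp_pos _) (nn_pos h1 (K.wpos i z (hST hz)) hA0))
      (det_real i (hST hz)).1
  have key : ∃ c C : ℝ, 0 < c ∧ 0 < C ∧ ∀ q ∈ S ×ˢ Metric.sphere (0 : Af n p) 1,
      c ≤ Φ q ∧ Φ q ≤ C := by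
    rcases (S ×ˢ Metric.sphere (0 : Af n p) 1).eq_empty_or_nonempty with he | hne
    · exact ⟨1, 1, one_pos, one_pos, fun q hq => absurd hq (by rw [he]; exact notMem_empty q)⟩
    · obtain ⟨a, ha, ha2⟩ := hcc.exists_isMinOn hne (hc.mono hsub)
      obtain ⟨b, hb, hb2⟩ := hcc.exists_isMaxOn hne (hc.mono hsub)
      exact ⟨Φ a, Φ b, hpos a ha, hpos b hb, fun q hq => ⟨ha2 hq, hb2 hq⟩⟩
  obtain ⟨c, C, hc0, hC0, hcC⟩ := key
  refine ⟨c, C, hc0, hC0, fun z hz A => ?_⟩
  by_cases hA : A = 0
  · subst hA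
    simp [nn_zero]
  · have hn0 : ‖A‖ ≠ 0 := norm_ne_zero_iff.2 hA
    set A₁ : Af n p := ((‖A‖ : ℂ)⁻¹) • A with hA₁
    have hs : A₁ ∈ Metric.sphere (0 : Af n p) 1 := by
      rw [mem_sphere_zero_iff_norm, hA₁, norm_smul, norm_inv, Complex.norm_real, norm_norm,
        inv_mul_cancel₀ hn0]
    obtain ⟨h6, h7⟩ := hcC (z, A₁) ⟨hz, hs⟩
    have h8 : Φ (z, A₁) = (‖A‖ ^ 2)⁻¹ * ((Real.exp (-K.φ i z) * nn (K.w i z) A) *
        (K.w i z).det.re) := by
      simp only [hΦ, hA₁, nn_smul, norm_inv, Complex.norm_real, norm_norm, inv_pow]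
      ring
    have hn2 : 0 < ‖A‖ ^ 2 := by positivity
    rw [h8] at h6 h7
    constructor
    · have := mul_le_mul_of_nonneg_right h6 hn2.le
      calc c * ‖A‖ ^ 2 ≤ _ := this
        _ = _ := by field_simp
    · have := mul_le_mul_of_nonneg_right h7 hn2.le
      calc (Real.exp (-K.φ i z) * nn (K.w i z) A) * (K.w i z).det.re =
            ((‖A‖ ^ 2)⁻¹ * ((Real.exp (-K.φ i z) * nn (K.w i z) A) * (K.w i z).det.re)) *
              ‖A‖ ^ 2 := by field_simp
        _ ≤ _ := this

end Vale.Agent.P284.H419.K
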