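import Vale.Agent.P284.H419.K.ChartL

/-!
# P284 (helper419), theorem K, density of test forms: the approximation of sequences of forms with
support in one framed chart
-/

open scoped ContDiff Topology ComplexConjugate ComplexOrder ENNReal
open Filter Set MeasureTheory

set_option linter.unusedSectionVars false

noncomputable section

namespace Vale.Agent.P284.H419.K

open Vale.Agent.P272.K Vale.Agent.P284.H608.K

variable {n p : ℕ} {M : Type} [TopologicalSpace M] [T2Space M] [MeasurableSpace M] [BorelSpace M]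
  {K : KA n M}

theorem small (h1 : K1Stmt) (h3 : K3Stmt n M K) (p : ℕ) (i : K.I) {C : Set M}
    (hC : IsCompact C) (hCs : C ⊆ (K.e i).source) {ε : ℝ} (hε : 0 < ε) : ∃ δ : ℝ≥0∞, 0 < δ ∧
      ∀ η : K.Fm p, K.Test η → K.Off C η → eLpNorm (η i) 2 volume ≤ δ → K.nq η ≤ ε := by
  obtain ⟨c, D, hc, hD, hcD⟩ := norm_cmp h1 h3 p i hC hCs
  refine ⟨ENNReal.ofReal (Real.sqrt (ε / D)), ENNReal.ofReal_pos.2 (Real.sqrt_pos.2 (by positivity)),
    fun η hη hηC hle => ?_⟩
  have h5 := (hcD η hη hηC).2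
  have h6 : ENNReal.ofReal (K.nq η) ≤ ENNReal.ofReal ε := by
    refine h5.trans ?_
    calc ENNReal.ofReal D * (eLpNorm (η i) 2 volume) ^ 2
        ≤ ENNReal.ofReal D * (ENNReal.ofReal (Real.sqrt (ε / D))) ^ 2 := by gcongr
      _ = ENNReal.ofReal ε := by
        rw [← ENNReal.ofReal_pow (Real.sqrt_nonneg _), Real.sq_sqrt (by positivity),
          ← ENNReal.ofReal_mul hD.le]
        congr 1
        field_simp
  exact (ENNReal.ofReal_le_ofReal_iff hε.le).1 h6

/-- the mollification in the chart -/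
def Rm (K : KA n M) (i : K.I) (m : ℕ) (η : K.Fm p) : K.Fm p := ext K i (Mo volume m (η i))

/-- a compact set which contains the supports of the mollifications -/
theorem rm_test (p : ℕ) (i : K.I) {C : Set M} (hC : IsCompact C) (hCs : C ⊆ (K.e i).source) :
    ∃ C₁, IsCompact C₁ ∧ C ⊆ C₁ ∧ C₁ ⊆ (K.e i).source ∧ ∀ᶠ m in atTop, ∀ η : K.Fm p,
      K.Test η → K.Off C η → K.Test (Rm K i m η) ∧ K.Off C₁ (Rm K i m η) ∧
        Rm K i m η i = Mo volume m (η i) := by
  have hSc : IsCompact (K.e i '' C) := hC.image_of_continuousOn ((K.e i).continuousOn.mono hCs)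
  have hST : K.e i '' C ⊆ (K.e i).target := by
    rintro _ ⟨x, hx, rfl⟩
    exact (K.e i).map_source (hCs hx)
  obtain ⟨S₁, hS₁, hSS, hS₁T, hm⟩ := mo_in (V := Af n p) (K.e i).open_target hSc hST
  refine ⟨(K.e i).symm '' S₁, hS₁.image_of_continuousOn ((K.e i).continuousOn_symm.mono hS₁T),
    fun x hx => ⟨K.e i x, hSS ⟨x, hx, rfl⟩, (K.e i).left_inv (hCs hx)⟩, ?_, ?_⟩
  · rintro _ ⟨z, hz, rfl⟩
    exact (K.e i).map_target (hS₁T hz)
  · filter_upwards [hm] with m hm η hη hηC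
    have hoff : ∀ y ∉ K.e i '' C, η i y = 0 := by
      have := chart_off i hη.form hηC
      rwa [inter_eq_left.2 hCs] at this
    have h5 := hm (η i) hoff
    have hcd : ContDiff ℝ ∞ (η i) := contDiff_iff_contDiffAt.2
      (chart_smooth i hη.form hη.smooth hC hηC hCs)
    have h6 : ContDiff ℝ ∞ (Mo volume m (η i)) := mo_smooth m hcd.continuous
    exact ⟨ext_test i hS₁ hS₁T h5 fun z => h6.contDiffAt, ext_off i h5, ext_self i hS₁T h5⟩

section seq

variable (h1 : K1Stmt) (h3 : K3Stmt n M K) (i : K.I) {C : Set M} (hC : IsCompact C)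
  (hCs : C ⊆ (K.e i).source)

include h1 h3 hC hCs

/-- convergence of the mollifications -/
theorem loc_x {x : ℕ → K.Fm p} (hx : ∀ k, K.Test (x k)) (hxC : ∀ k, K.Off C (x k)) (hN : NC x)
    {ε : ℝ} (hε : 0 < ε) : ∀ᶠ m in atTop, ∀ᶠ k in atTop, K.Test (Rm K i m (x k)) ∧
      K.nq (Rm K i m (x k) - x k) ≤ ε := by
  obtain ⟨C₁, hC₁, hCC, hC₁s, hm⟩ := rm_test p i hC hCs
  obtain ⟨δ, hδ, hδ2⟩ := small h1 h3 p i hC₁ hC₁s hε
  have hcd : ∀ k, ContDiff ℝ ∞ (x k i) := fun k => contDiff_iff_contDiffAt.2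
      (chart_smooth i (hx k).form (hx k).smooth hC (hxC k) hCs)
  have hSc : IsCompact (K.e i '' C) := hC.image_of_continuousOn ((K.e i).continuousOn.mono hCs)
  have hoff : ∀ k, ∀ y ∉ K.e i '' C, x k i y = 0 := by
    intro k
    have := chart_off i (hx k).form (hxC k)
    rwa [inter_eq_left.2 hCs] at this
  have h5 := mo_unif (cs_of h1 h3 i hC hCs hx hxC hN) (fun k => (hcd k).continuous)
    (fun k => HasCompactSupport.intro hSc (hoff k)) hδ
  filter_upwards [h5, hm] with m h5 hm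
  filter_upwards [h5] with k h5
  obtain ⟨t1, t2, t3⟩ := hm (x k) (hx k) (hxC k)
  refine ⟨t1, hδ2 _ (test_sub t1 (hx k)) (off_sub t2 (off_mono hCC (hxC k))) ?_⟩
  have e1 : (Rm K i m (x k) - x k) i = Mo volume m (x k i) - x k i := by
    rw [← t3]
    rfl
  rw [e1]
  exact h5

theorem loc_dh {x : ℕ → K.Fm p} (hx : ∀ k, K.Test (x k)) (hxC : ∀ k, K.Off C (x k)) (hN : NC x)
    {α : ℕ → K.Fm (p + 1)} (hα : ∀ k, K.Test (α k)) (hαC : ∀ k, K.Off C (α k)) (hNα : NC α)
    (hw : WN fun k => K.dh (x k) - α k) {ε : ℝ} (hε : 0 < ε) :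
    ∀ᶠ m in atTop, ∀ᶠ k in atTop, K.nq (K.dh (Rm K i m (x k)) - α k) ≤ ε := by
  obtain ⟨C₁, hC₁, hCC, hC₁s, hm⟩ := rm_test p i hC hCs
  obtain ⟨δ, hδ, hδ2⟩ := small h1 h3 (p + 1) i hC₁ hC₁s hε
  have hcd : ∀ k, ContDiff ℝ ∞ (x k i) := fun k => contDiff_iff_contDiffAt.2
      (chart_smooth i (hx k).form (hx k).smooth hC (hxC k) hCs)
  have hcα : ∀ k, ContDiff ℝ ∞ (α k i) := fun k => contDiff_iff_contDiffAt.2
      (chart_smooth i (hα k).form (hα k).smooth hC (hαC k) hCs)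
  have hSc : IsCompact (K.e i '' C) := hC.image_of_continuousOn ((K.e i).continuousOn.mono hCs)
  have hST : K.e i '' C ⊆ (K.e i).target := by
    rintro _ ⟨x, hx, rfl⟩
    exact (K.e i).map_source (hCs hx)
  have hoff : ∀ k, ∀ y ∉ K.e i '' C, x k i y = 0 := by
    intro k
    have := chart_off i (hx k).form (hxC k)
    rwa [inter_eq_left.2 hCs] at this
  have hoffα : ∀ k, ∀ y ∉ K.e i '' C, α k i y = 0 := by
    intro k
    have := chart_off i (hα k).form (hαC k)
    rwa [inter_eq_left.2 hCs] at this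
  have hind : ∀ η : K.Fm p, (K.e i).target.indicator (dhL (K.φ i) (η i)) = K.dh η i := by
    intro η
    funext z
    by_cases hz : z ∈ (K.e i).target
    · rw [indicator_of_mem hz, KA.dh, if_pos hz]
    · rw [indicator_of_notMem hz, KA.dh, if_neg hz]
  have hrT : ∀ k, K.Test (K.dh (x k) - α k) := fun k => test_sub (h3.dh_test p _ (hx k)) (hα k)
  have hrC : ∀ k, K.Off C (K.dh (x k) - α k) := fun k =>
    off_sub (off_dh hC.isClosed (hxC k)) (hαC k)
  have h5 := op_main (K.e i).open_target (isOp_dh (T := (K.e i).target) (p := p) (K.φsm i)) hSc hST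
    hcd hoff (fun k => (hcα k).continuous) hoffα (cs_of h1 h3 i hC hCs hx hxC hN)
    (cs_of h1 h3 i hC hCs hα hαC hNα) (fun m z => by
      have := weak_pt h3 i hC hCs hrT hrC hw m z
      refine this.congr fun k => ?_
      rw [hind]
      rfl) hδ
  filter_upwards [h5, hm] with m h5 hm
  filter_upwards [h5] with k h5
  obtain ⟨t1, t2, t3⟩ := hm (x k) (hx k) (hxC k)
  refine hδ2 _ (test_sub (h3.dh_test p _ t1) (hα k))
    (off_sub (off_dh hC₁.isClosed t2) (off_mono hCC (hαC k))) ?_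
  have e1 : (K.dh (Rm K i m (x k)) - α k) i =
      fun z => (K.e i).target.indicator (dhL (K.φ i) (Mo volume m (x k i))) z - α k i z := by
    rw [← t3, hind]
    rfl
  rw [e1]
  exact h5

theorem loc_S {x : ℕ → K.Fm (p + 1)} (hx : ∀ k, K.Test (x k)) (hxC : ∀ k, K.Off C (x k))
    (hN : NC x) {α : ℕ → K.Fm p} (hα : ∀ k, K.Test (α k)) (hαC : ∀ k, K.Off C (α k))
    (hNα : NC α) (hw : WN fun k => K.S (x k) - α k) {ε : ℝ} (hε : 0 < ε) :
    ∀ᶠ m in atTop, ∀ᶠ k in atTop, K.nq (K.S (Rm K i m (x k)) - α k) ≤ ε := by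
  obtain ⟨C₁, hC₁, hCC, hC₁s, hm⟩ := rm_test (p + 1) i hC hCs
  obtain ⟨δ, hδ, hδ2⟩ := small h1 h3 p i hC₁ hC₁s hε
  have hcd : ∀ k, ContDiff ℝ ∞ (x k i) := fun k => contDiff_iff_contDiffAt.2
      (chart_smooth i (hx k).form (hx k).smooth hC (hxC k) hCs)
  have hcα : ∀ k, ContDiff ℝ ∞ (α k i) := fun k => contDiff_iff_contDiffAt.2
      (chart_smooth i (hα k).form (hα k).smooth hC (hαC k) hCs)
  have hSc : IsCompact (K.e i '' C) := hC.image_of_continuousOn ((K.e i).continuousOn.mono hCs)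
  have hST : K.e i '' C ⊆ (K.e i).target := by
    rintro _ ⟨x, hx, rfl⟩
    exact (K.e i).map_source (hCs hx)
  have hoff : ∀ k, ∀ y ∉ K.e i '' C, x k i y = 0 := by
    intro k
    have := chart_off i (hx k).form (hxC k)
    rwa [inter_eq_left.2 hCs] at this
  have hoffα : ∀ k, ∀ y ∉ K.e i '' C, α k i y = 0 := by
    intro k
    have := chart_off i (hα k).form (hαC k)
    rwa [inter_eq_left.2 hCs] at this
  have hind : ∀ η : K.Fm (p + 1), (K.e i).target.indicator (SL (K.w i) (η i)) = K.S η i := by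
    intro η
    funext z
    by_cases hz : z ∈ (K.e i).target
    · rw [indicator_of_mem hz, KA.S, if_pos hz]
    · rw [indicator_of_notMem hz, KA.S, if_neg hz]
  have hrT : ∀ k, K.Test (K.S (x k) - α k) := fun k => test_sub (h3.S_test p _ (hx k)) (hα k)
  have hrC : ∀ k, K.Off C (K.S (x k) - α k) := fun k =>
    off_sub (off_S hC.isClosed (hxC k)) (hαC k)
  have h5 := op_main (K.e i).open_target (isOp_S (T := (K.e i).target) (p := p) (K.wsm i)
    (fun z hz => (K.wpos i z hz).det_pos.ne')) hSc hST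
    hcd hoff (fun k => (hcα k).continuous) hoffα (cs_of h1 h3 i hC hCs hx hxC hN)
    (cs_of h1 h3 i hC hCs hα hαC hNα) (fun m z => by
      have := weak_pt h3 i hC hCs hrT hrC hw m z
      refine this.congr fun k => ?_
      rw [hind]
      rfl) hδ
  filter_upwards [h5, hm] with m h5 hm
  filter_upwards [h5] with k h5
  obtain ⟨t1, t2, t3⟩ := hm (x k) (hx k) (hxC k)
  refine hδ2 _ (test_sub (h3.S_test p _ t1) (hα k))
    (off_sub (off_S hC₁.isClosed t2) (off_mono hCC (hαC k))) ?_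
  have e1 : (K.S (Rm K i m (x k)) - α k) i =
      fun z => (K.e i).target.indicator (SL (K.w i) (Mo volume m (x k i))) z - α k i z := by
    rw [← t3, hind]
    rfl
  rw [e1]
  exact h5

end seq

end Vale.Agent.P284.H419.K
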