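import Vale.Agent.P284.H419.K.Ext
import Vale.Agent.P284.H286.K.EngD

/-!
# P284 (helper419), theorem K, density of test forms: multiplication by functions
-/

open scoped ContDiff Topology ComplexConjugate ComplexOrder ENNReal
open Filter Set MeasureTheory

set_option linter.unusedSectionVars false

noncomputable section

namespace Vale.Agent.P284.H419.K

open Vale.Agent.P272.K Vale.Agent.P284.H608.K

section local'

variable {n p : ℕ}

theorem fd_smul {V : Type} [NormedAddCommGroup V] [NormedSpace ℂ V] {c : Cm n → ℂ} {η : Cm n → V}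
    {z : Cm n} (hc : DifferentiableAt ℝ c z) (hη : DifferentiableAt ℝ η z) (v : Cm n) :
    fderiv ℝ (fun z => c z • η z) z v = c z • fderiv ℝ η z v + (fderiv ℝ c z v) • η z := by
  have h := (hc.hasFDerivAt.smul hη.hasFDerivAt).fderiv
  have h2 : fderiv ℝ (fun z => c z • η z) z =
      c z • fderiv ℝ η z + (fderiv ℝ c z).smulRight (η z) := h
  rw [h2]
  rfl

theorem dzV_mul {V : Type} [NormedAddCommGroup V] [NormedSpace ℂ V] {c : Cm n → ℂ} {η : Cm n → V}
    {z : Cm n} (hc : DifferentiableAt ℝ c z) (hη : DifferentiableAt ℝ η z) (a : Fin n) :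
    dzV a (fun z => c z • η z) z = c z • dzV a η z + dz a c z • η z := by
  rw [dzV, dzV, dz, fd_smul hc hη, fd_smul hc hη]
  module

theorem dbV_mul {V : Type} [NormedAddCommGroup V] [NormedSpace ℂ V] {c : Cm n → ℂ} {η : Cm n → V}
    {z : Cm n} (hc : DifferentiableAt ℝ c z) (hη : DifferentiableAt ℝ η z) (a : Fin n) :
    dbV a (fun z => c z • η z) z = c z • dbV a η z + dzb a c z • η z := by
  rw [dbV, dbV, dzb, fd_smul hc hη, fd_smul hc hη]
  module

theorem smulRight_lin (L : Cm n →L[ℂ] ℂ) (c d : ℂ) (A B : Af n p) :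
    L.smulRight (c • A + d • B) = c • L.smulRight A + d • L.smulRight B := by
  ext x v
  simp only [ContinuousLinearMap.smulRight_apply, add_apply,
    smul_apply, ContinuousAlternatingMap.smul_apply, ContinuousAlternatingMap.add_apply,
    smul_eq_mul]
  ring

theorem dhL_mul (φ : Cm n → ℝ) {c : Cm n → ℂ} {η : Cm n → Af n p}
    {z : Cm n} (hc : DifferentiableAt ℝ c z) (hη : DifferentiableAt ℝ η z) :
    dhL φ (fun z => c z • η z) z = c z • dhL φ η z + dW (fun a => dz a c z) (η z) := by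
  unfold dhL dW
  rw [← ContinuousAlternatingMap.alternatizeUncurryFin_smul,
    ← ContinuousAlternatingMap.alternatizeUncurryFin_add, Finset.smul_sum,
    ← Finset.sum_add_distrib]
  congr 1
  refine Finset.sum_congr rfl fun a _ => ?_
  rw [dzV_mul hc hη]
  ext x v
  simp only [ContinuousLinearMap.smulRight_apply, add_apply, smul_apply,
    ContinuousAlternatingMap.smul_apply, ContinuousAlternatingMap.add_apply,
    ContinuousAlternatingMap.sub_apply, smul_eq_mul]
  ring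

theorem Lam_lin (w : Matrix (Fin n) (Fin n) ℂ) (c : ℂ) (T T' : Fin n → Af n (p + 1)) :
    Lam w (fun b => c • T b + T' b) = c • Lam w T + Lam w T' := by
  rw [H286.K.Lam_add, H286.K.Lam_smul]

theorem SL_mul (w : Cm n → Matrix (Fin n) (Fin n) ℂ) {c : Cm n → ℂ} {η : Cm n → Af n (p + 1)}
    {z : Cm n} (hc : DifferentiableAt ℝ c z) (hη : DifferentiableAt ℝ η z) :
    SL w (fun z => c z • η z) z = c z • SL w η z - cT (w z) (fun b => dzb b c z) (η z) := by
  unfold SL cT
  have h1 : (fun b => dbV b (fun z => c z • η z) z) =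
      fun b => c z • dbV b η z + dzb b c z • η z := funext fun b => dbV_mul hc hη b
  rw [h1, Lam_lin]
  ext v
  simp only [ContinuousAlternatingMap.neg_apply, ContinuousAlternatingMap.add_apply,
    ContinuousAlternatingMap.smul_apply, ContinuousAlternatingMap.sub_apply, smul_eq_mul]
  ring

theorem dzb_real {f : Cm n → ℝ} {z : Cm n} (hf : DifferentiableAt ℝ f z) (b : Fin n) :
    dzb b (fun z => (f z : ℂ)) z = conj (dz b (fun z => (f z : ℂ)) z) := by
  have h1 : ∀ v, fderiv ℝ (fun z => (f z : ℂ)) z v = ((fderiv ℝ f z v : ℝ) : ℂ) := by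
    intro v
    have h2 := (Complex.ofRealCLM.hasFDerivAt (x := f z)).comp z hf.hasFDerivAt
    have h3 := h2.fderiv
    have h4 : fderiv ℝ (fun z => (f z : ℂ)) z = Complex.ofRealCLM.comp (fderiv ℝ f z) := h3
    rw [h4]
    rfl
  rw [dzb, dz, h1, h1]
  simp [map_ofNat]

end local'

variable {n p : ℕ} {M : Type} [TopologicalSpace M] [T2Space M] [MeasurableSpace M] [BorelSpace M]
  {K : KA n M}

/-- smooth functions -/
def SmF (K : KA n M) (f : M → ℝ) : Prop :=
  ∀ i, ∀ z ∈ (K.e i).target, ContDiffAt ℝ ∞ (fun z => f ((K.e i).symm z)) z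

/-- the function in a chart -/
def fc (K : KA n M) (f : M → ℝ) (i : K.I) (z : Cm n) : ℂ := (f ((K.e i).symm z) : ℂ)

theorem fc_smooth {f : M → ℝ} (hf : SmF K f) (i : K.I) {z : Cm n} (hz : z ∈ (K.e i).target) :
    ContDiffAt ℝ ∞ (fc K f i) z :=
  (Complex.ofRealCLM.contDiff.contDiffAt).comp z (hf i z hz)

/-- multiplication by a function -/
def mf (f : M → ℝ) (η : K.Fm p) : K.Fm p := fun i z => fc K f i z • η i z

theorem mf_form {f : M → ℝ} {η : K.Fm p} (h : K.IsForm η) : K.IsForm (mf f η) := by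
  refine ⟨fun i j x hi hj => ?_, fun i z hz => ?_⟩
  · have e1 := h.change i j x hi hj
    rw [mf, mf, fc, fc, (K.e i).left_inv hi, (K.e j).left_inv hj, e1]
    ext v
    simp only [ContinuousAlternatingMap.smul_apply,
      ContinuousAlternatingMap.compContinuousLinearMap_apply, smul_eq_mul]
    ring
  · rw [mf, h.off i z hz]
    ext v
    simp

theorem mf_smooth {f : M → ℝ} (hf : SmF K f) {η : K.Fm p} (h : K.Smooth η) :
    K.Smooth (mf f η) := by
  intro i z hz
  refine contDiffAt_ev fun s => ?_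
  have := (fc_smooth hf i hz).mul (ev_smooth (h i z hz) s)
  exact this

theorem mf_off {f : M → ℝ} {η : K.Fm p} {C : Set M} (h : K.Off C η) : K.Off C (mf f η) := by
  intro i x hx hxC
  rw [mf, h i x hx hxC]
  ext v
  simp

theorem mf_off' {f : M → ℝ} {η : K.Fm p} {C : Set M} (h : ∀ x ∉ C, f x = 0) :
    K.Off C (mf f η) := by
  intro i x hx hxC
  rw [mf, fc, (K.e i).left_inv hx, h x hxC]
  ext v
  simp

theorem mf_test {f : M → ℝ} (hf : SmF K f) {η : K.Fm p} (h : K.Test η) : K.Test (mf f η) := by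
  obtain ⟨C, hC, hC2⟩ := h.supp
  exact ⟨mf_form h.form, mf_smooth hf h.smooth, C, hC, mf_off hC2⟩

/-- `∂f ∧ η` -/
def wf (f : M → ℝ) (η : K.Fm p) : K.Fm (p + 1) := K.dh (mf f η) - mf f (K.dh η)

/-- the contraction of `η` with `∂̄f`, with the sign of `S` -/
def cf (f : M → ℝ) (η : K.Fm (p + 1)) : K.Fm p := K.S (mf f η) - mf f (K.S η)

theorem wf_eq {f : M → ℝ} (hf : SmF K f) {η : K.Fm p} (h : K.Smooth η) (i : K.I) {z : Cm n}
    (hz : z ∈ (K.e i).target) : wf f η i z = dW (fun a => dz a (fc K f i) z) (η i z) := by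
  have h1 := dhL_mul (K.φ i) ((fc_smooth hf i hz).differentiableAt (by simp))
    ((h i z hz).differentiableAt (by simp))
  change K.dh (mf f η) i z - fc K f i z • K.dh η i z = _
  rw [KA.dh, KA.dh, if_pos hz, if_pos hz]
  change dhL (K.φ i) (fun z => fc K f i z • η i z) z - _ = _
  rw [h1]
  ext v
  simp only [ContinuousAlternatingMap.sub_apply, ContinuousAlternatingMap.add_apply]
  ring

theorem cf_eq {f : M → ℝ} (hf : SmF K f) {η : K.Fm (p + 1)} (h : K.Smooth η) (i : K.I) {z : Cm n}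
    (hz : z ∈ (K.e i).target) :
    cf f η i z = -cT (K.w i z) (fun b => conj (dz b (fc K f i) z)) (η i z) := by
  have h1 := SL_mul (K.w i) ((fc_smooth hf i hz).differentiableAt (by simp))
    ((h i z hz).differentiableAt (by simp))
  have h2 : (fun b => dzb b (fc K f i) z) = fun b => conj (dz b (fc K f i) z) :=
    funext fun b => dzb_real (f := fun z => f ((K.e i).symm z))
      ((hf i z hz).differentiableAt (by simp)) b
  change K.S (mf f η) i z - fc K f i z • K.S η i z = _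
  rw [KA.S, KA.S, if_pos hz, if_pos hz]
  change SL (K.w i) (fun z => fc K f i z • η i z) z - _ = _
  rw [h1, h2]
  ext v
  simp only [ContinuousAlternatingMap.sub_apply, ContinuousAlternatingMap.neg_apply]
  ring

theorem wf_form (h3 : K3Stmt n M K) {f : M → ℝ} (hf : SmF K f) {η : K.Fm p} (h : K.IsForm η)
    (hs : K.Smooth η) : K.IsForm (wf f η) ∧ K.Smooth (wf f η) :=
  ⟨H286.K.form_sub (h3.dh_form p _ (mf_form h) (mf_smooth hf hs)).1
    (mf_form (h3.dh_form p _ h hs).1),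
   H286.K.smooth_sub (h3.dh_form p _ (mf_form h) (mf_smooth hf hs)).2
    (mf_smooth hf (h3.dh_form p _ h hs).2)⟩

theorem cf_form (h3 : K3Stmt n M K) {f : M → ℝ} (hf : SmF K f) {η : K.Fm (p + 1)}
    (h : K.IsForm η) (hs : K.Smooth η) : K.IsForm (cf f η) ∧ K.Smooth (cf f η) :=
  ⟨H286.K.form_sub (h3.S_form p _ (mf_form h) (mf_smooth hf hs)).1
    (mf_form (h3.S_form p _ h hs).1),
   H286.K.smooth_sub (h3.S_form p _ (mf_form h) (mf_smooth hf hs)).2
    (mf_smooth hf (h3.S_form p _ h hs).2)⟩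

theorem test_sub {η ζ : K.Fm p} (h1 : K.Test η) (h2 : K.Test ζ) : K.Test (η - ζ) :=
  (H286.K.TS K p).sub_mem h1 h2

theorem wf_test (h3 : K3Stmt n M K) {f : M → ℝ} (hf : SmF K f) {η : K.Fm p} (h : K.Test η) :
    K.Test (wf f η) :=
  test_sub (h3.dh_test p _ (mf_test hf h)) (mf_test hf (h3.dh_test p _ h))

theorem cf_test (h3 : K3Stmt n M K) {f : M → ℝ} (hf : SmF K f) {η : K.Fm (p + 1)}
    (h : K.Test η) : K.Test (cf f η) :=
  test_sub (h3.S_test p _ (mf_test hf h)) (mf_test hf (h3.S_test p _ h))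

/-! ### norms -/

/-- the pointwise square of the norm -/
def ds (η : K.Fm p) (x : M) : ℝ := (K.dn η η x).re

theorem ds_eq (h3 : K3Stmt n M K) {η : K.Fm p} (h : K.IsForm η) (i : K.I) {x : M}
    (hx : x ∈ (K.e i).source) :
    ds η x = Real.exp (-K.φ i (K.e i x)) * nn (K.w i (K.e i x)) (η i (K.e i x)) := by
  rw [ds, h3.dn_eq p η η h h i x hx, Complex.re_ofReal_mul]
  rfl

/-- the gradient of `f` is bounded at `x` -/
def GB (f : M → ℝ) (c : ℝ) (K : KA n M) (i : K.I) (x : M) : Prop :=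
  (mn (K.w i (K.e i x)) (fun a => dz a (fc K f i) (K.e i x))).re ≤ c

theorem ds_wf (h1 : K1Stmt) (h3 : K3Stmt n M K) {f : M → ℝ} (hf : SmF K f) {η : K.Fm p}
    (h : K.IsForm η) (hs : K.Smooth η) {c : ℝ} {i : K.I} {x : M} (hx : x ∈ (K.e i).source)
    (hg : GB f c K i x) : ds (wf f η) x ≤ c * ds η x := by
  have hz := (K.e i).map_source hx
  have hw := K.wpos i _ hz
  rw [ds_eq h3 (wf_form h3 hf h hs).1 i hx, ds_eq h3 h i hx, wf_eq hf hs i hz]
  have h5 := (dW_le h1 hw (fun a => dz a (fc K f i) (K.e i x)) (η i (K.e i x))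
    (mn_nonneg hw _)).trans (mul_le_mul_of_nonneg_right hg (nn_nonneg h1 hw _))
  calc _ ≤ Real.exp (-K.φ i (K.e i x)) * (c * nn (K.w i (K.e i x)) (η i (K.e i x))) :=
        mul_le_mul_of_nonneg_left h5 (Real.exp_nonneg _)
    _ = _ := by ring

theorem ds_cf (h1 : K1Stmt) (h3 : K3Stmt n M K) {f : M → ℝ} (hf : SmF K f) {η : K.Fm (p + 1)}
    (h : K.IsForm η) (hs : K.Smooth η) {c : ℝ} {i : K.I} {x : M} (hx : x ∈ (K.e i).source)
    (hg : GB f c K i x) : ds (cf f η) x ≤ c * ds η x := by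
  have hz := (K.e i).map_source hx
  have hw := K.wpos i _ hz
  rw [ds_eq h3 (cf_form h3 hf h hs).1 i hx, ds_eq h3 h i hx, cf_eq hf hs i hz, nn_neg]
  have h5 := (cT_le h1 hw (fun a => dz a (fc K f i) (K.e i x)) (η i (K.e i x))
    (mn_nonneg hw _)).trans (mul_le_mul_of_nonneg_right hg (nn_nonneg h1 hw _))
  calc _ ≤ Real.exp (-K.φ i (K.e i x)) * (c * nn (K.w i (K.e i x)) (η i (K.e i x))) :=
        mul_le_mul_of_nonneg_left h5 (Real.exp_nonneg _)
    _ = _ := by ring

theorem ds_mf (f : M → ℝ) (η : K.Fm p) (x : M) : ds (mf f η) x = f x ^ 2 * ds η x := by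
  rw [ds, ds, KA.dn, KA.dn]
  have h1 : mf f η (K.ix x) (K.e (K.ix x) x) = (f x : ℂ) • η (K.ix x) (K.e (K.ix x) x) := by
    rw [mf, fc, (K.e _).left_inv (mem_ix x)]
  rw [h1, hn_smul_left, hn_smul_right, Complex.conj_ofReal]
  rw [Complex.re_ofReal_mul, Complex.re_ofReal_mul, Complex.re_ofReal_mul, Complex.re_ofReal_mul]
  ring

theorem ds_nonneg (h1 : K1Stmt) (η : K.Fm p) (x : M) : 0 ≤ ds η x := H286.K.dn_nonneg h1 η x

theorem nq_ds (h3 : K3Stmt n M K) {η : K.Fm p} (h : K.Test η) :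
    K.nq η = ∫ x, ds η x ∂K.μ ∧ Integrable (ds η) K.μ :=
  ⟨H286.K.nq_eq h3 h, (h3.int p η η h h.form h.smooth).1.re⟩

theorem nq_le {q : ℕ} (h3 : K3Stmt n M K) {η : K.Fm p} {ζ : K.Fm q} (h : K.Test η)
    (h' : K.Test ζ) {c : ℝ} (hle : ∀ x, ds η x ≤ c * ds ζ x) : K.nq η ≤ c * K.nq ζ := by
  obtain ⟨e1, i1⟩ := nq_ds h3 h
  obtain ⟨e2, i2⟩ := nq_ds h3 h'
  rw [e1, e2, ← integral_const_mul]
  exact integral_mono i1 (i2.const_mul c) hle

theorem ds_add_le (h1 : K1Stmt) (η ζ : K.Fm p) (x : M) :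
    ds (η + ζ) x ≤ 2 * ds η x + 2 * ds ζ x := by
  have := H286.K.dn_young h1 η ζ one_pos x
  norm_num at this
  exact this

theorem nq_add_le (h1 : K1Stmt) (h3 : K3Stmt n M K) {η ζ : K.Fm p} (h : K.Test η)
    (h' : K.Test ζ) : K.nq (η + ζ) ≤ 2 * K.nq η + 2 * K.nq ζ := by
  obtain ⟨e1, i1⟩ := nq_ds h3 h
  obtain ⟨e2, i2⟩ := nq_ds h3 h'
  obtain ⟨e3, i3⟩ := nq_ds h3 (H286.K.test_add K h h')
  rw [e1, e2, e3, ← integral_const_mul, ← integral_const_mul,
    ← integral_add (i1.const_mul 2) (i2.const_mul 2)]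
  exact integral_mono i3 ((i1.const_mul 2).add (i2.const_mul 2)) fun x => ds_add_le h1 η ζ x

theorem nq_nn (h1 : K1Stmt) (h3 : K3Stmt n M K) {η : K.Fm p} (h : K.Test η) : 0 ≤ K.nq η :=
  H286.K.nq_nonneg h1 h3 h

theorem nq_neg (η : K.Fm p) : K.nq (-η) = K.nq η := by
  rw [KA.nq, KA.nq, KA.ip, KA.ip]
  congr 2
  funext x
  rw [KA.dn, KA.dn]
  simp only [Pi.neg_apply, hn_neg_left, hn_neg_right, neg_neg]

theorem test_neg {η : K.Fm p} (h : K.Test η) : K.Test (-η) := (H286.K.TS K p).neg_mem h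

theorem nq_sub_le (h1 : K1Stmt) (h3 : K3Stmt n M K) {η ζ : K.Fm p} (h : K.Test η)
    (h' : K.Test ζ) : K.nq (η - ζ) ≤ 2 * K.nq η + 2 * K.nq ζ := by
  have := nq_add_le h1 h3 h (test_neg h')
  rwa [nq_neg, ← sub_eq_add_neg] at this

end Vale.Agent.P284.H419.K
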