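import Vale.Agent.P284.H419.K.Pop

/-!
# P284 (helper419), theorem K, density of test forms: weak limits and mollification
-/

open scoped ContDiff Topology ENNReal Pointwise
open Filter Set MeasureTheory

set_option linter.unusedSectionVars false

noncomputable section

namespace Vale.Agent.P284.H419.K

open Vale.Agent.P363.R.Sob Vale.Agent.P299.H863

section

variable {E : Type} [NormedAddCommGroup E] [NormedSpace ℝ E] [FiniteDimensional ℝ E]
  [MeasurableSpace E] [BorelSpace E]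
variable {V W : Type} [NormedAddCommGroup V] [NormedSpace ℝ V] [CompleteSpace V]
  [NormedAddCommGroup W] [NormedSpace ℝ W] [CompleteSpace W]
variable {μ : Measure E} [μ.IsAddHaarMeasure]
variable {ι : Type} [Fintype ι] {A : ι → E → V →L[ℝ] W} {v : ι → E} {B : E → V →L[ℝ] W}

/-- integrals against a bounded kernel on a set of finite measure -/
theorem ker_bd {S : Set E} (hS : MeasurableSet S) {k : E → V →L[ℝ] W} {K : NNReal}
    (hk : ∀ y, ‖k y‖ ≤ K) {u : E → V} (hu : Continuous u) (h0 : ∀ y ∉ S, k y (u y) = 0) :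
    ‖∫ y, k y (u y) ∂μ‖ₑ ≤ (K * (μ S) ^ ((1 : ℝ) / 2)) * eLpNorm u 2 μ := by
  calc ‖∫ y, k y (u y) ∂μ‖ₑ ≤ ∫⁻ y, ‖k y (u y)‖ₑ ∂μ := enorm_integral_le_lintegral_enorm _
    _ = ∫⁻ y in S, ‖k y (u y)‖ₑ ∂μ := by
      rw [← lintegral_indicator hS]
      refine lintegral_congr fun y => ?_
      by_cases hy : y ∈ S
      · rw [indicator_of_mem hy]
      · rw [indicator_of_notMem hy, h0 y hy, enorm_zero]
    _ ≤ ∫⁻ y in S, (K : ℝ≥0∞) * ‖u y‖ₑ ∂μ := by
      refine lintegral_mono fun y => ?_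
      calc ‖k y (u y)‖ₑ ≤ ‖k y‖ₑ * ‖u y‖ₑ := (k y).le_opENorm _
        _ ≤ (K : ℝ≥0∞) * ‖u y‖ₑ := by
          gcongr
          rw [← ofReal_norm]
          refine (ENNReal.ofReal_le_ofReal (hk y)).trans ?_
          rw [ENNReal.ofReal_coe_nnreal]
    _ = K * ∫⁻ y in S, ‖u y‖ₑ ∂μ := lintegral_const_mul _ hu.enorm.measurable
    _ = K * eLpNorm u 1 (μ.restrict S) := by rw [eLpNorm_one_eq_lintegral_enorm]
    _ ≤ K * (eLpNorm u 2 (μ.restrict S) * (μ.restrict S) univ ^ (1 / (1 : ℝ≥0∞).toReal -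
        1 / (2 : ℝ≥0∞).toReal)) := by
      gcongr
      exact eLpNorm_le_eLpNorm_mul_rpow_measure_univ (by norm_num) hu.aestronglyMeasurable
    _ ≤ K * (eLpNorm u 2 μ * (μ S) ^ ((1 : ℝ) / 2)) := by
      gcongr
      · exact Measure.restrict_le_self
      · have e1 : 1 / (1 : ℝ≥0∞).toReal - 1 / (2 : ℝ≥0∞).toReal = (1 : ℝ) / 2 := by norm_num
        rw [e1, Measure.restrict_apply_univ]
    _ = _ := by ring

theorem ro_bd (m : ℕ) : ∃ K : NNReal, ∀ z : E, ‖ro μ m z‖ ≤ K := by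
  obtain ⟨C, hC⟩ := (ro_smooth μ m).continuous.bounded_above_of_compact_support
    (ro_supp μ m : HasCompactSupport (ro μ m : E → ℝ))
  exact ⟨⟨max C 0, le_max_right _ _⟩, fun z => (hC z).trans (le_max_left _ _)⟩

theorem dro_bd (m : ℕ) (v : E) : ∃ K : NNReal, ∀ z : E, ‖fderiv ℝ (ro μ m) z v‖ ≤ K := by
  have h1 : Continuous fun z : E => fderiv ℝ (ro μ m) z v :=
    (dir_smooth (ro_smooth μ m) v).continuous
  obtain ⟨C, hC⟩ := h1.bounded_above_of_compact_support ((ro_supp μ m).fderiv_apply (𝕜 := ℝ) v)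
  exact ⟨⟨max C 0, le_max_right _ _⟩, fun z => (hC z).trans (le_max_left _ _)⟩

/-- pointwise bound of the mollification of functions with support in a fixed set -/
theorem mo_pt (m : ℕ) {S : Set E} (hS : MeasurableSet S) (hSf : μ S ≠ ⊤) :
    ∃ C : ℝ≥0∞, C ≠ ⊤ ∧ ∀ a : E → V, Continuous a → (∀ y ∉ S, a y = 0) → ∀ z,
      ‖Mo μ m a z‖ₑ ≤ C * eLpNorm a 2 μ := by
  obtain ⟨K, hK⟩ := ro_bd (μ := μ) m
  refine ⟨K * (μ S) ^ ((1 : ℝ) / 2), ENNReal.mul_ne_top (by simp)
    (ENNReal.rpow_ne_top_of_nonneg (by norm_num) hSf), fun a ha h0 z => ?_⟩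
  rw [mo_apply']
  refine ker_bd (k := fun y => ro μ m (z - y) • ContinuousLinearMap.id ℝ V) hS (fun y => ?_) ha
    (fun y hy => by rw [h0 y hy, map_zero])
  rw [norm_smul]
  exact (mul_le_of_le_one_right (norm_nonneg _) ContinuousLinearMap.norm_id_le).trans (hK _)

theorem int_clm {q : E → V →L[ℝ] W} {f : E → V} (hq : Continuous q) (hqs : HasCompactSupport q)
    (hf : Continuous f) : Integrable (fun y => q y (f y)) μ := by
  refine (hq.clm_apply hf).integrable_of_hasCompactSupport ?_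
  refine hqs.mono' fun y hy => ?_
  refine subset_tsupport _ ?_
  intro h
  exact hy (by simp only [h, zero_apply])

theorem ibp_dir {q q' : E → V →L[ℝ] W} (hq : Continuous q) (hqs : HasCompactSupport q)
    (hq' : Continuous q') (hqs' : HasCompactSupport q') {v : E}
    (hd : ∀ y, HasLineDerivAt ℝ q (q' y) y v) {u : E → V} (hu : ContDiff ℝ ∞ u) :
    ∫ y, q y (fderiv ℝ u y v) ∂μ = -∫ y, q' y (u y) ∂μ :=
  integral_bilinear_hasLineDerivAt_right_eq_neg_left_of_integrable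
    (μ := μ) (f := q) (f' := q') (g := u)
    (g' := fun y => fderiv ℝ u y v) (v := v) (B := ContinuousLinearMap.id ℝ (V →L[ℝ] W))
    (int_clm hq' hqs' hu.continuous) (int_clm hq hqs (dir_smooth hu v).continuous)
    (int_clm hq hqs hu.continuous) (fun y _ => hd y)
    (fun y _ => (hu.differentiable (by simp) y).hasFDerivAt.hasLineDerivAt v)

/-- the kernel after integration by parts -/
def kz (μ : Measure E) (m : ℕ) (G : E → V →L[ℝ] W) (v z y : E) : V →L[ℝ] W :=
  (-fderiv ℝ (ro μ m) (z - y) v) • G y + ro μ m (z - y) • fderiv ℝ G y v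

theorem kz_deriv (m : ℕ) {G : E → V →L[ℝ] W} (hG : ContDiff ℝ ∞ G) (v z y : E) :
    HasLineDerivAt ℝ (fun y => ro μ m (z - y) • G y) (kz μ m G v z y) y v := by
  have h1 : HasFDerivAt (fun y : E => z - y) (-ContinuousLinearMap.id ℝ E) y := by
    have h0 := (hasFDerivAt_const (𝕜 := ℝ) z y).sub (hasFDerivAt_id (𝕜 := ℝ) y)
    rw [zero_sub] at h0
    exact h0
  have h2 : HasFDerivAt (fun y : E => ro μ m (z - y))
      ((fderiv ℝ (ro μ m) (z - y)).comp (-ContinuousLinearMap.id ℝ E)) y :=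
    (((ro_smooth μ m).differentiable (by simp) (z - y)).hasFDerivAt).comp y h1
  have h3 := (h2.smul (hG.differentiable (by simp) y).hasFDerivAt).hasLineDerivAt v
  have h4 : (ro μ m (z - y) • fderiv ℝ G y +
      ((fderiv ℝ (ro μ m) (z - y)).comp (-ContinuousLinearMap.id ℝ E)).smulRight (G y)) v =
      kz μ m G v z y := by
    simp [kz]
    abel
  rw [h4] at h3
  exact h3

theorem kz_cont (m : ℕ) {G : E → V →L[ℝ] W} (hG : ContDiff ℝ ∞ G) (v z : E) :
    Continuous (kz μ m G v z) := by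
  have hsub : Continuous fun y : E => z - y := continuous_const.sub continuous_id
  have hrc : Continuous fun y : E => ro μ m (z - y) := (ro_smooth μ m).continuous.comp hsub
  have hdc : Continuous fun y : E => -fderiv ℝ (ro μ m) (z - y) v :=
    ((dir_smooth (ro_smooth μ m) v).continuous.comp hsub).neg
  exact (hdc.smul hG.continuous).add (hrc.smul (dir_smooth hG v).continuous)

theorem kz_off (m : ℕ) {G : E → V →L[ℝ] W} (v z : E) {y : E} (hy : y ∉ tsupport G) :
    kz μ m G v z y = 0 := by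
  have h1 : G =ᶠ[𝓝 y] fun _ => 0 := notMem_tsupport_iff_eventuallyEq.1 hy
  have h2 : fderiv ℝ G y = 0 := by
    rw [h1.fderiv_eq, fderiv_fun_const]
    rfl
  rw [kz, h1.eq_of_nhds, h2, smul_zero, zero_apply, smul_zero, add_zero]

/-- pointwise bound of the mollification of `A ∂_v u` -/
theorem mo_dir_pt (m : ℕ) {G : E → V →L[ℝ] W} (hG : ContDiff ℝ ∞ G) (hGs : HasCompactSupport G)
    (v : E) : ∃ C : ℝ≥0∞, C ≠ ⊤ ∧ ∀ u : E → V, ContDiff ℝ ∞ u → ∀ z,
      ‖Mo μ m (fun y => G y (fderiv ℝ u y v)) z‖ₑ ≤ C * eLpNorm u 2 μ := by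
  obtain ⟨K, hK⟩ := ro_bd (μ := μ) m
  obtain ⟨K', hK'⟩ := dro_bd (μ := μ) m v
  obtain ⟨L, hL⟩ := exists_bd hG.continuous hGs
  obtain ⟨L', hL'⟩ := exists_bd (dir_smooth hG v).continuous (hGs.fderiv_apply (𝕜 := ℝ) v)
  have hSm : MeasurableSet (tsupport G) := (isClosed_tsupport G).measurableSet
  refine ⟨((K' * L + K * L' : NNReal) : ℝ≥0∞) * (μ (tsupport G)) ^ ((1 : ℝ) / 2),
    ENNReal.mul_ne_top ENNReal.coe_ne_top
      (ENNReal.rpow_ne_top_of_nonneg (by norm_num) hGs.isCompact.measure_lt_top.ne),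
    fun u hu z => ?_⟩
  have hrc : Continuous fun y : E => ro μ m (z - y) :=
    (ro_smooth μ m).continuous.comp (continuous_const.sub continuous_id)
  have e1 : ∫ y, (ro μ m (z - y) • G y) (fderiv ℝ u y v) ∂μ = -∫ y, kz μ m G v z y (u y) ∂μ := by
    refine ibp_dir (hrc.smul hG.continuous) hGs.smul_left (kz_cont m hG v z)
      (HasCompactSupport.intro hGs.isCompact fun y hy => kz_off m v z hy)
      (fun y => kz_deriv m hG v z y) hu
  rw [mo_apply']
  change ‖∫ y, (ro μ m (z - y) • G y) (fderiv ℝ u y v) ∂μ‖ₑ ≤ _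
  rw [e1, enorm_neg]
  refine ker_bd hSm (fun y => ?_) hu.continuous (fun y hy => ?_)
  · calc ‖kz μ m G v z y‖ ≤ ‖(-fderiv ℝ (ro μ m) (z - y) v) • G y‖ +
          ‖ro μ m (z - y) • fderiv ℝ G y v‖ := norm_add_le _ _
      _ ≤ K' * L + K * L' := by
        rw [norm_smul, norm_smul, norm_neg]
        gcongr
        · exact hK' _
        · exact hL _
        · exact hK _
        · exact hL' _
      _ = _ := by push_cast; ring
  · rw [kz_off m v z hy]
    rfl

theorem mo_pop_pt (h : Good A B) (m : ℕ) : ∃ C : ℝ≥0∞, C ≠ ⊤ ∧ ∀ u : E → V, ContDiff ℝ ∞ u →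
    ∀ z, ‖Mo μ m (Pop A v B u) z‖ₑ ≤ C * eLpNorm u 2 μ := by
  choose C hCt hC using fun l => mo_dir_pt (μ := μ) m (h.a l) (h.as l) (v l)
  obtain ⟨K, hK⟩ := exists_bd h.b.continuous h.bs
  have hSm : MeasurableSet (tsupport B) := (isClosed_tsupport B).measurableSet
  obtain ⟨D, hDt, hD⟩ := mo_pt (V := W) (μ := μ) m hSm h.bs.isCompact.measure_lt_top.ne
  refine ⟨(∑ l, C l) + D * K, ENNReal.add_ne_top.2 ⟨ENNReal.sum_ne_top.2 fun l _ => hCt l,
    ENNReal.mul_ne_top hDt ENNReal.coe_ne_top⟩, fun u hu z => ?_⟩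
  have h1 : Pop A v B u = (∑ l, fun z => A l z (fderiv ℝ u z (v l))) + fun z => B z (u z) := by
    funext z
    simp [Pop]
  have hc : ∀ l, Continuous fun z => A l z (fderiv ℝ u z (v l)) := fun l =>
    h.cA l (dir_smooth hu (v l)).continuous
  have h2 : Continuous (∑ l, fun z => A l z (fderiv ℝ u z (v l))) := by
    rw [show (∑ l, fun z => A l z (fderiv ℝ u z (v l))) =
      fun z => ∑ l, A l z (fderiv ℝ u z (v l)) from by funext z; simp]
    exact continuous_finsetSum _ fun l _ => hc l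
  rw [h1, mo_add m h2 (h.cB hu.continuous), mo_sum m _ _ hc, Pi.add_apply, Finset.sum_apply]
  refine (enorm_add_le _ _).trans ?_
  rw [add_mul, Finset.sum_mul]
  refine add_le_add ((enorm_sum_le _ _).trans (Finset.sum_le_sum fun l _ => hC l u hu z)) ?_
  refine (hD _ (h.cB hu.continuous) (fun y hy => ?_) z).trans ?_
  · have h3 : B =ᶠ[𝓝 y] fun _ => 0 := notMem_tsupport_iff_eventuallyEq.1 hy
    show B y (u y) = 0
    rw [h3.eq_of_nhds]
    rfl
  · rw [mul_assoc]
    gcongr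
    exact eLp_clm hK u

/-- the mollification has support near the support -/
theorem mo_off (m : ℕ) {S : Set E} {a : E → V} (h0 : ∀ y ∉ S, a y = 0) {z : E}
    (hz : z ∉ S + tsupport (ro μ m : E → ℝ)) : Mo μ m a z = 0 := by
  rw [mo_apply']
  refine integral_eq_zero_of_ae (Eventually.of_forall fun y => ?_)
  by_cases hy : y ∈ S
  · have : ro μ m (z - y) = 0 := by
      by_contra hne
      exact hz ⟨y, hy, z - y, subset_tsupport _ hne, add_sub_cancel y z⟩
    simp only [this, zero_smul, Pi.zero_apply]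
  · simp only [h0 y hy, smul_zero, Pi.zero_apply]

theorem pop_sub {f g : E → V} (hf : ContDiff ℝ ∞ f) (hg : ContDiff ℝ ∞ g) :
    Pop A v B (f - g) = Pop A v B f - Pop A v B g := by
  funext z
  simp only [Pop, Pi.sub_apply]
  rw [fderiv_sub (hf.differentiable (by simp) z) (hg.differentiable (by simp) z)]
  simp only [sub_apply, map_sub, Finset.sum_sub_distrib]
  abel

/-- a weakly null sequence `P u_k - a_k`: the mollifications converge to `0` in `L²` -/
theorem mo_null (h : Good A B) {S : Set E} (hS : IsCompact S) {u : ℕ → E → V} {a : ℕ → E → W}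
    (hu : ∀ k, ContDiff ℝ ∞ (u k)) (ha : ∀ k, Continuous (a k))
    (ha0 : ∀ k, ∀ z ∉ S, a k z = 0) (hP0 : ∀ k, ∀ z ∉ S, Pop A v B (u k) z = 0)
    (hcu : CS μ u) (hca : CS μ a) (m : ℕ)
    (hw : ∀ z, Tendsto (fun k => Mo μ m (Pop A v B (u k) - a k) z) atTop (𝓝 0)) :
    Tendsto (fun k => eLpNorm (Mo μ m (Pop A v B (u k) - a k)) 2 μ) atTop (𝓝 0) := by
  obtain ⟨C, hCt, hC⟩ := mo_pop_pt (v := v) (μ := μ) h m
  obtain ⟨D, hDt, hD⟩ := mo_pt (V := W) (μ := μ) m hS.measurableSet hS.measure_lt_top.ne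
  have hPc : ∀ k, Continuous (Pop A v B (u k)) := fun k => (h.smooth (hu k)).continuous
  set S' := S + tsupport (ro μ m : E → ℝ) with hS'
  have hS'c : IsCompact S' := hS.add (ro_supp μ m).isCompact
  have key : ∀ ε : ℝ≥0∞, 0 < ε → ∀ᶠ k in atTop, ∀ z,
      ‖Mo μ m (Pop A v B (u k) - a k) z‖ₑ ≤ ε := by
    intro ε hε
    obtain ⟨k₁, hk₁⟩ := hcu.ev hCt (ε := ε / 2) (ENNReal.half_pos hε.ne')
    obtain ⟨k₂, hk₂⟩ := hca.ev hDt (ε := ε / 2) (ENNReal.half_pos hε.ne')
    filter_upwards [eventually_ge_atTop (max k₁ k₂)] with k hk z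
    have h1 : ∀ l, max k₁ k₂ ≤ l → ‖Mo μ m (Pop A v B (u k) - a k) z -
        Mo μ m (Pop A v B (u l) - a l) z‖ₑ ≤ ε := by
      intro l hl
      have e1 : Mo μ m (Pop A v B (u k) - a k) z - Mo μ m (Pop A v B (u l) - a l) z =
          Mo μ m (Pop A v B (u k - u l)) z - Mo μ m (a k - a l) z := by
        rw [pop_sub (hu k) (hu l), mo_sub m (hPc k) (ha k), mo_sub m (hPc l) (ha l),
          mo_sub m (hPc k) (hPc l), mo_sub m (ha k) (ha l)]
        simp only [Pi.sub_apply]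
        abel
      rw [e1]
      refine (enorm_sub_le).trans ?_
      refine (add_le_add ((hC _ ((hu k).sub (hu l)) z).trans
        (hk₁ k l ((le_max_left _ _).trans hk) ((le_max_left _ _).trans hl)))
        ((hD _ ((ha k).sub (ha l)) (fun y hy => ?_) z).trans
        (hk₂ k l ((le_max_right _ _).trans hk) ((le_max_right _ _).trans hl)))).trans
        (le_of_eq (ENNReal.add_halves ε))
      simp only [Pi.sub_apply, ha0 k y hy, ha0 l y hy, sub_self]
    have h2 : Tendsto (fun l => ‖Mo μ m (Pop A v B (u k) - a k) z -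
        Mo μ m (Pop A v B (u l) - a l) z‖ₑ) atTop
        (𝓝 ‖Mo μ m (Pop A v B (u k) - a k) z - 0‖ₑ) :=
      (tendsto_const_nhds.sub (hw z)).enorm
    rw [sub_zero] at h2
    exact le_of_tendsto h2 ((eventually_ge_atTop (max k₁ k₂)).mono fun l hl => h1 l hl)
  have hbd : ∀ (ε : NNReal) (k : ℕ), (∀ z, ‖Mo μ m (Pop A v B (u k) - a k) z‖ₑ ≤ ε) →
      eLpNorm (Mo μ m (Pop A v B (u k) - a k)) 2 μ ≤ ε * μ S' ^ (1 / (2 : ℝ≥0∞).toReal) := by
    intro ε k hε
    have h3 : eLpNorm (Mo μ m (Pop A v B (u k) - a k)) 2 μ ≤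
        eLpNorm (S'.indicator fun _ => (ε : ℝ)) 2 μ := by
      refine eLpNorm_mono fun z => ?_
      by_cases hz : z ∈ S'
      · rw [indicator_of_mem hz]
        have := hε z
        rw [← ofReal_norm, ENNReal.ofReal_le_iff_le_toReal ENNReal.coe_ne_top] at this
        simpa using this
      · rw [mo_off m (S := S) (fun y hy => ?_) hz]
        · rw [norm_zero]; exact norm_nonneg _
        · simp only [Pi.sub_apply, ha0 k y hy, hP0 k y hy, sub_self]
    refine h3.trans ?_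
    rw [eLpNorm_indicator_const hS'c.measurableSet (by norm_num) (by norm_num)]
    simp
  have hfin : μ S' ^ (1 / (2 : ℝ≥0∞).toReal) ≠ ⊤ :=
    ENNReal.rpow_ne_top_of_nonneg (by norm_num) hS'c.measure_lt_top.ne
  rw [ENNReal.tendsto_nhds_zero]
  intro ε hε
  have : ∃ δ : NNReal, 0 < δ ∧ (δ : ℝ≥0∞) * μ S' ^ (1 / (2 : ℝ≥0∞).toReal) ≤ ε := by
    rcases eq_or_ne ε ⊤ with rfl | hεt
    · exact ⟨1, one_pos, le_top⟩
    · have h5 : Tendsto (fun δ : ℝ≥0∞ => δ * μ S' ^ (1 / (2 : ℝ≥0∞).toReal)) (𝓝 0) (𝓝 0) := by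
        have := ENNReal.Tendsto.mul_const (b := μ S' ^ (1 / (2 : ℝ≥0∞).toReal))
          (tendsto_id (x := 𝓝 (0 : ℝ≥0∞))) (Or.inr hfin)
        rwa [zero_mul] at this
      have h6 := (ENNReal.tendsto_nhds_zero.1 h5) ε hε
      obtain ⟨δ, hδ0, hδ⟩ := (ENNReal.nhds_zero_basis.eventually_iff).1 h6
      obtain ⟨δ', h7, h8⟩ := ENNReal.lt_iff_exists_nnreal_btwn.1 hδ0
      exact ⟨δ', by exact_mod_cast h7, hδ h8⟩
  obtain ⟨δ, hδ0, hδ⟩ := this
  filter_upwards [key δ (by exact_mod_cast hδ0)] with k hk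
  exact (hbd δ k hk).trans hδ

/-- **the local approximation theorem** -/
theorem loc_main (h : Good A B) {S : Set E} (hS : IsCompact S) {u : ℕ → E → V} {a : ℕ → E → W}
    (hu : ∀ k, ContDiff ℝ ∞ (u k)) (hu0 : ∀ k, ∀ z ∉ S, u k z = 0)
    (ha : ∀ k, Continuous (a k)) (ha0 : ∀ k, ∀ z ∉ S, a k z = 0)
    (hcu : CS μ u) (hca : CS μ a)
    (hw : ∀ᶠ m in atTop, ∀ z, Tendsto (fun k => Mo μ m (Pop A v B (u k) - a k) z) atTop (𝓝 0))
    {ε : ℝ≥0∞} (hε : 0 < ε) : ∀ᶠ m in atTop, ∀ᶠ k in atTop,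
      eLpNorm (Pop A v B (Mo μ m (u k)) - a k) 2 μ ≤ ε := by
  have hus : ∀ k, HasCompactSupport (u k) := fun k => HasCompactSupport.intro hS (hu0 k)
  have has : ∀ k, HasCompactSupport (a k) := fun k => HasCompactSupport.intro hS (ha0 k)
  have hP0 : ∀ k, ∀ z ∉ S, Pop A v B (u k) z = 0 := by
    intro k z hz
    have h1 : u k =ᶠ[𝓝 z] fun _ => 0 := by
      filter_upwards [hS.isClosed.isOpen_compl.mem_nhds hz] with y hy using hu0 k y hy
    have h2 : fderiv ℝ (u k) z = 0 := by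
      rw [h1.fderiv_eq, fderiv_fun_const]
      rfl
    simp only [Pop, h2, h1.eq_of_nhds, zero_apply, map_zero, Finset.sum_const_zero, add_zero]
  have h3 : (0 : ℝ≥0∞) < ε / 2 := ENNReal.half_pos hε.ne'
  have h4 : (0 : ℝ≥0∞) < ε / 2 / 2 := ENNReal.half_pos h3.ne'
  filter_upwards [pop_unif (v := v) h hcu hu hus h3, mo_unif hca ha has h4, hw] with m h5 h6 h7
  have h8 := (ENNReal.tendsto_nhds_zero.1 (mo_null (v := v) h hS hu ha ha0 hP0 hcu hca m h7)) _ h4
  filter_upwards [h5, h6, h8] with k h5 h6 h8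
  have hPc : Continuous (Pop A v B (u k)) := (h.smooth (hu k)).continuous
  have hPm : Continuous (Pop A v B (Mo μ m (u k))) :=
    (h.smooth (mo_smooth m (hu k).continuous)).continuous
  have c1 : Continuous (Mo μ m (Pop A v B (u k))) := (mo_smooth m hPc).continuous
  have c2 : Continuous (Mo μ m (a k)) := (mo_smooth m (ha k)).continuous
  have e1 : Pop A v B (Mo μ m (u k)) - a k = (Pop A v B (Mo μ m (u k)) - Mo μ m (Pop A v B (u k))) +
      (Mo μ m (Pop A v B (u k) - a k) + (Mo μ m (a k) - a k)) := by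
    rw [mo_sub m hPc (ha k)]
    abel
  rw [e1]
  have c3 : Continuous (Mo μ m (Pop A v B (u k) - a k)) :=
    (mo_smooth m (hPc.sub (ha k))).continuous
  refine (eLpNorm_add_le (hPm.sub c1).aestronglyMeasurable
    (c3.add (c2.sub (ha k))).aestronglyMeasurable (by norm_num)).trans ?_
  refine (add_le_add h5 ((eLpNorm_add_le c3.aestronglyMeasurable
    (c2.sub (ha k)).aestronglyMeasurable (by norm_num)).trans (add_le_add h8 h6))).trans ?_
  rw [ENNReal.add_halves, ENNReal.add_halves]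

end

end Vale.Agent.P284.H419.K
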