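import Vale.Agent.P284.H419.K.Mul
import Vale.Agent.P284.H419.K.Weak
import Mathlib.Geometry.Manifold.PartitionOfUnity

/-!
# P284 (helper419), theorem K, density of test forms: the operators in a framed chart
-/

open scoped ContDiff Topology ComplexConjugate ComplexOrder ENNReal Pointwise Manifold
open Filter Set MeasureTheory

set_option linter.unusedSectionVars false

noncomputable section

namespace Vale.Agent.P284.H419.K

open Vale.Agent.P272.K Vale.Agent.P284.H608.K

section gen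

variable {n : ℕ} {V W : Type} [NormedAddCommGroup V] [NormedSpace ℂ V] [CompleteSpace V]
  [NormedAddCommGroup W] [NormedSpace ℂ W] [CompleteSpace W]

/-- multiplication of a complex linear map by a scalar, as a real linear map -/
def cL (L : V →L[ℂ] W) : ℂ →L[ℝ] V →L[ℝ] W :=
  (ContinuousLinearMap.toSpanSingleton ℂ L).bilinearRestrictScalars ℝ

theorem cL_apply (L : V →L[ℂ] W) (c : ℂ) (x : V) : cL L c x = c • L x := rfl

/-- a first order operator with smooth coefficients on `T` -/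
def IsOp (T : Set (Cm n)) (D : (Cm n → V) → Cm n → W) : Prop :=
  ∃ (ι κ : Type) (_ : Fintype ι) (_ : Fintype κ) (v : ι → Cm n) (L : κ → V →L[ℂ] W)
    (c : ι → κ → Cm n → ℂ) (c₀ : κ → Cm n → ℂ),
    (∀ l j, ∀ z ∈ T, ContDiffAt ℝ ∞ (c l j) z) ∧ (∀ j, ∀ z ∈ T, ContDiffAt ℝ ∞ (c₀ j) z) ∧
    ∀ u, ∀ z ∈ T, D u z = ∑ l, ∑ j, c l j z • L j (fderiv ℝ u z (v l)) + ∑ j, c₀ j z • L j (u z)

theorem cut_smooth {θ : Cm n → ℝ} (hθ : ContDiff ℝ ∞ θ) {T : Set (Cm n)} (hT : tsupport θ ⊆ T)
    {c : Cm n → ℂ} (hc : ∀ z ∈ T, ContDiffAt ℝ ∞ c z) : ContDiff ℝ ∞ fun z => (θ z : ℂ) * c z := by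
  rw [contDiff_iff_contDiffAt]
  intro z
  by_cases hz : z ∈ T
  · exact ((Complex.ofRealCLM.contDiff.contDiffAt).comp z hθ.contDiffAt).mul (hc z hz)
  · have h1 : θ =ᶠ[𝓝 z] fun _ => 0 := notMem_tsupport_iff_eventuallyEq.1 fun h => hz (hT h)
    refine contDiffAt_const.congr_of_eventuallyEq (f := fun _ => 0) ?_
    filter_upwards [h1] with y hy
    rw [hy]
    simp

theorem exists_theta {S T : Set (Cm n)} (hS : IsCompact S) (hT : IsOpen T) (hST : S ⊆ T) :
    ∃ θ : Cm n → ℝ, ContDiff ℝ ∞ θ ∧ HasCompactSupport θ ∧ tsupport θ ⊆ T ∧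
      ∀ z ∈ S, θ z = 1 := by
  obtain ⟨L, hL, h1, h2⟩ := exists_compact_between hS hT hST
  obtain ⟨f, hf1, hf0, -⟩ := exists_contMDiffMap_one_nhds_of_subset_interior
    (n := (⊤ : ℕ∞)) 𝓘(ℝ, Cm n) hS.isClosed h1
  have hsub : tsupport (f : Cm n → ℝ) ⊆ L := closure_minimal
    (fun z hz => by by_contra h; exact hz (hf0 z h)) hL.isClosed
  refine ⟨f, f.contMDiff.contDiff, hL.of_isClosed_subset (isClosed_tsupport _) hsub,
    hsub.trans h2, fun z hz => hf1.self_of_nhdsSet z hz⟩

/-- **the approximation theorem for one operator in a chart** -/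
theorem op_main {T : Set (Cm n)} (hT : IsOpen T) {D : (Cm n → V) → Cm n → W} (hD : IsOp T D)
    {S : Set (Cm n)} (hS : IsCompact S) (hST : S ⊆ T) {u : ℕ → Cm n → V} {a : ℕ → Cm n → W}
    (hu : ∀ k, ContDiff ℝ ∞ (u k)) (hu0 : ∀ k, ∀ z ∉ S, u k z = 0)
    (ha : ∀ k, Continuous (a k)) (ha0 : ∀ k, ∀ z ∉ S, a k z = 0)
    (hcu : CS volume u) (hca : CS volume a)
    (hw : ∀ m z, Tendsto (fun k => Mo volume m (fun y => T.indicator (D (u k)) y - a k y) z)
      atTop (𝓝 0))
    {ε : ℝ≥0∞} (hε : 0 < ε) : ∀ᶠ m in atTop, ∀ᶠ k in atTop,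
      eLpNorm (fun z => T.indicator (D (Mo volume m (u k))) z - a k z) 2 volume ≤ ε := by
  obtain ⟨ι, κ, _, _, v, L, c, c₀, hc, hc₀, hDe⟩ := hD
  obtain ⟨δ, hδ, hδT⟩ := hS.exists_cthickening_subset_open hT hST
  set S₁ := Metric.cthickening δ S with hS₁
  have hS₁c : IsCompact S₁ := hS.cthickening
  obtain ⟨θ, hθ, hθs, hθT, hθ1⟩ := exists_theta hS₁c hT hδT
  set A : ι → Cm n → V →L[ℝ] W := fun l z => ∑ j, cL (L j) ((θ z : ℂ) * c l j z) with hA
  set B : Cm n → V →L[ℝ] W := fun z => ∑ j, cL (L j) ((θ z : ℂ) * c₀ j z) with hB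
  have hoff : ∀ (g : κ → Cm n → ℂ), HasCompactSupport
      (fun z => ∑ j, cL (L j) ((θ z : ℂ) * g j z)) := by
    intro g
    refine hθs.mono' fun z hz => ?_
    refine subset_tsupport _ fun h => hz ?_
    simp only [h, Complex.ofReal_zero, zero_mul, map_zero, Finset.sum_const_zero]
  have hgood : Good A B := by
    refine ⟨fun l => ?_, fun l => hoff (c l), ?_, hoff c₀⟩
    · exact ContDiff.sum fun j _ => (cL (L j)).contDiff.comp (cut_smooth hθ hθT (hc l j))
    · exact ContDiff.sum fun j _ => (cL (L j)).contDiff.comp (cut_smooth hθ hθT (hc₀ j))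
  -- the operator on functions which vanish off `S₁`
  have hpop : ∀ f : Cm n → V, (∀ z ∉ S₁, f z = 0) → Pop A v B f = T.indicator (D f) := by
    intro f hf
    funext z
    have e1 : Pop A v B f z = (θ z : ℂ) • (∑ l, ∑ j, c l j z • L j (fderiv ℝ f z (v l)) +
        ∑ j, c₀ j z • L j (f z)) := by
      simp only [Pop, hA, hB, sum_apply, cL_apply, smul_add, Finset.smul_sum,
        smul_smul]
    by_cases hz : z ∈ T
    · rw [indicator_of_mem hz, hDe f z hz, e1]
      by_cases hz1 : z ∈ S₁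
      · rw [hθ1 z hz1, Complex.ofReal_one, one_smul]
      · have h1 : f =ᶠ[𝓝 z] fun _ => 0 := by
          filter_upwards [hS₁c.isClosed.isOpen_compl.mem_nhds hz1] with y hy using hf y hy
        have h2 : fderiv ℝ f z = 0 := by
          rw [h1.fderiv_eq, fderiv_fun_const]
          rfl
        simp only [h2, h1.eq_of_nhds, zero_apply, map_zero, smul_zero, Finset.sum_const_zero,
          add_zero]
    · rw [indicator_of_notMem hz, e1]
      have : θ z = 0 := by
        by_contra h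
        exact hz (hθT (subset_tsupport _ h))
      rw [this, Complex.ofReal_zero, zero_smul]
  have hSS₁ : S ⊆ S₁ := Metric.self_subset_cthickening S
  have hpu : ∀ k, Pop A v B (u k) = T.indicator (D (u k)) := fun k =>
    hpop _ fun z hz => hu0 k z fun h => hz (hSS₁ h)
  have hsm : ∀ᶠ m : ℕ in atTop, (1 : ℝ) / ((m : ℝ) + 1) ≤ δ := by
    have := (tendsto_one_div_add_atTop_nhds_zero_nat (𝕜 := ℝ)).eventually (gt_mem_nhds hδ)
    filter_upwards [this] with m hm using hm.le
  have hlast := loc_main (μ := volume) (v := v) hgood hS hu hu0 ha ha0 hcu hca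
    (Eventually.of_forall fun m z => by
      have := hw m z
      refine this.congr fun k => ?_
      congr 1
      funext y
      rw [Pi.sub_apply, hpu k]) hε
  filter_upwards [hlast, hsm] with m h1 h2
  filter_upwards [h1] with k h3
  have h4 : Pop A v B (Mo volume m (u k)) = T.indicator (D (Mo volume m (u k))) := by
    refine hpop _ fun z hz => mo_off m (hu0 k) fun h => hz ?_
    obtain ⟨y, hy, t, ht, rfl⟩ := h
    have ht2 : t ∈ Metric.closedBall (0 : Cm n) δ := by
      have h5 : t ∈ tsupport ((Vale.Agent.P363.R.Sob.stdBump m :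
        ContDiffBump (0 : Cm n)).normed volume) := ht
      rw [ContDiffBump.tsupport_normed_eq] at h5
      exact Metric.closedBall_subset_closedBall h2 h5
    refine Metric.closedBall_subset_cthickening hy δ ?_
    rw [mem_closedBall_iff_norm] at ht2 ⊢
    simpa using ht2
  have h5 : (fun z => T.indicator (D (Mo volume m (u k))) z - a k z) =
      Pop A v B (Mo volume m (u k)) - a k := by
    rw [h4]
    rfl
  rw [h5]
  exact h3

/-- the support of the mollification is in the chart -/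
theorem mo_in {T : Set (Cm n)} (hT : IsOpen T) {S : Set (Cm n)} (hS : IsCompact S)
    (hST : S ⊆ T) : ∃ S₁, IsCompact S₁ ∧ S ⊆ S₁ ∧ S₁ ⊆ T ∧ ∀ᶠ m in atTop, ∀ f : Cm n → V,
      (∀ z ∉ S, f z = 0) → ∀ z ∉ S₁, Mo volume m f z = 0 := by
  obtain ⟨δ, hδ, hδT⟩ := hS.exists_cthickening_subset_open hT hST
  refine ⟨Metric.cthickening δ S, hS.cthickening, Metric.self_subset_cthickening S, hδT, ?_⟩
  have hsm : ∀ᶠ m : ℕ in atTop, (1 : ℝ) / ((m : ℝ) + 1) ≤ δ := by
    have := (tendsto_one_div_add_atTop_nhds_zero_nat (𝕜 := ℝ)).eventually (gt_mem_nhds hδ)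
    filter_upwards [this] with m hm using hm.le
  filter_upwards [hsm] with m h2 f hf z hz
  refine mo_off m hf fun h => hz ?_
  obtain ⟨y, hy, t, ht, rfl⟩ := h
  have ht2 : t ∈ Metric.closedBall (0 : Cm n) δ := by
    have h5 : t ∈ tsupport ((Vale.Agent.P363.R.Sob.stdBump m :
      ContDiffBump (0 : Cm n)).normed volume) := ht
    rw [ContDiffBump.tsupport_normed_eq] at h5
    exact Metric.closedBall_subset_closedBall h2 h5
  refine Metric.closedBall_subset_cthickening hy δ ?_
  rw [mem_closedBall_iff_norm] at ht2 ⊢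
  simpa using ht2

end gen

/-! ### the two operators -/

variable {n p : ℕ}

/-- `η ↦ dz_a ∧ η` -/
def LW (a : Fin n) : Af n p →L[ℂ] Af n (p + 1) :=
  (ContinuousAlternatingMap.alternatizeUncurryFinCLM ℂ (Cm n) ℂ).comp
    (ContinuousLinearMap.smulRightL ℂ (Cm n) (Af n p)
      (ContinuousLinearMap.proj (R := ℂ) (φ := fun _ : Fin n => ℂ) a))

theorem LW_apply (a : Fin n) (η : Af n p) : LW a η =
    ContinuousAlternatingMap.alternatizeUncurryFin
      ((ContinuousLinearMap.proj (R := ℂ) (φ := fun _ : Fin n => ℂ) a).smulRight η) := rfl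

/-- the contraction with `e_a` -/
def CW (a : Fin n) : Af n (p + 1) →L[ℂ] Af n p :=
  LinearMap.toContinuousLinearMap
    { toFun := fun η => η.curryLeft (Pi.single a 1)
      map_add' := fun η ζ => by ext v; rfl
      map_smul' := fun c η => by ext v; rfl }

theorem CW_apply (a : Fin n) (η : Af n (p + 1)) : CW a η = η.curryLeft (Pi.single a 1) := rfl

/-- the directions -/
def dir (l : Fin n × Bool) : Cm n := Pi.single l.1 (if l.2 then Complex.I else 1)

theorem isOp_dh {T : Set (Cm n)} {φ : Cm n → ℝ}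
    (hφ : ∀ z ∈ T, ContDiffAt ℝ ∞ φ z) : IsOp T (fun η : Cm n → Af n p => dhL φ η) := by
  refine ⟨Fin n × Bool, Fin n, inferInstance, inferInstance, dir, fun a => LW a,
    fun l a _ => if l.1 = a then (if l.2 then -((2 : ℂ)⁻¹ * Complex.I) else (2 : ℂ)⁻¹) else 0,
    fun a z => -dz a (fun y => (φ y : ℂ)) z, fun l j z _ => contDiffAt_const, fun j z hz => ?_,
    fun u z hz => ?_⟩
  · have h1 : ContDiffAt ℝ ∞ (fun y => (φ y : ℂ)) z :=
      (Complex.ofRealCLM.contDiff.contDiffAt).comp z (hφ z hz)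
    have h2 : ContDiffAt ℝ ∞ (fderiv ℝ fun y => (φ y : ℂ)) z :=
      h1.fderiv_right (m := ∞) (by simp)
    unfold dz
    have h3 : ∀ v : Cm n, ContDiffAt ℝ ∞ (fun z => fderiv ℝ (fun y => (φ y : ℂ)) z v) z :=
      fun v => h2.clm_apply contDiffAt_const
    exact (((h3 _).sub (contDiffAt_const.mul (h3 _))).div_const 2).neg
  · have e1 : dhL φ u z = ∑ a, LW a (dzV a u z - dz a (fun y => (φ y : ℂ)) z • u z) := by
      unfold dhL
      rw [← ContinuousAlternatingMap.alternatizeUncurryFinCLM_apply, map_sum]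
      rfl
    change dhL φ u z = _
    rw [e1]
    simp only [dzV, map_sub, map_smul, Finset.sum_sub_distrib, neg_smul, Finset.sum_neg_distrib]
    rw [← sub_eq_add_neg]
    congr 1
    rw [Fintype.sum_prod_type]
    refine (Finset.sum_congr rfl fun a _ => ?_)
    rw [Fintype.sum_bool]
    simp only [ite_smul, zero_smul, Finset.sum_ite_eq, Finset.mem_univ, if_true, dir]
    simp only [if_true, if_false, Bool.false_eq_true]
    module

theorem isOp_S {T : Set (Cm n)} {w : Cm n → Matrix (Fin n) (Fin n) ℂ}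
    (hw : ∀ z ∈ T, ∀ j k, ContDiffAt ℝ ∞ (fun z => w z j k) z) (hd : ∀ z ∈ T, (w z).det ≠ 0) :
    IsOp T (fun η : Cm n → Af n (p + 1) => SL w η) := by
  refine ⟨Fin n × Bool, Fin n, inferInstance, inferInstance, dir, fun a => CW a,
    fun l a z => (if l.2 then -((2 : ℂ)⁻¹ * Complex.I) else -(2 : ℂ)⁻¹) * (w z)⁻¹ l.1 a,
    fun _ _ => 0, fun l j z hz => ?_, fun j z hz => contDiffAt_const, fun u z hz => ?_⟩
  · exact contDiffAt_const.mul (C2.MC.inv (A := w) (hw z hz) (hd z hz) l.1 j)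
  · have e1 : SL w u z = ∑ b, ∑ a, -((w z)⁻¹ b a • CW a (dbV b u z)) := by
      unfold SL Lam
      rw [Finset.sum_comm]
      simp only [Finset.sum_neg_distrib]
      rfl
    change SL w u z = _
    rw [e1]
    simp only [zero_smul, Finset.sum_const_zero, add_zero]
    rw [Fintype.sum_prod_type]
    refine (Finset.sum_congr rfl fun b _ => ?_)
    rw [Fintype.sum_bool, ← Finset.sum_add_distrib]
    refine (Finset.sum_congr rfl fun a _ => ?_)
    simp only [dbV, map_add, map_smul, dir, if_true, if_false, Bool.false_eq_true]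
    module

end Vale.Agent.P284.H419.K
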