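import Vale.Agent.P284.H419.K.Fr

/-!
# P284 (helper419), theorem K, density of test forms: first order operators
-/

open scoped ContDiff Topology ENNReal
open Filter Set MeasureTheory

set_option linter.unusedSectionVars false

noncomputable section

namespace Vale.Agent.P284.H419.K

open Vale.Agent.P363.R.Sob Vale.Agent.P299.H863

section

variable {E : Type} [NormedAddCommGroup E] [NormedSpace ℝ E] [FiniteDimensional ℝ E]
  [MeasurableSpace E] [BorelSpace E]
variable {V W : Type} [NormedAddCommGroup V] [NormedSpace ℝ V] [CompleteSpace V]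
  [NormedAddCommGroup W] [NormedSpace ℝ W] [CompleteSpace W]
variable {μ : Measure E} [μ.IsAddHaarMeasure]
variable {ι : Type} [Fintype ι] {A : ι → E → V →L[ℝ] W} {v : ι → E} {B : E → V →L[ℝ] W}

/-- the operator `Σ A_l ∂_{v_l} + B` -/
def Pop (A : ι → E → V →L[ℝ] W) (v : ι → E) (B : E → V →L[ℝ] W) (u : E → V) (z : E) : W :=
  ∑ l, A l z (fderiv ℝ u z (v l)) + B z (u z)

/-- smooth coefficients with compact support -/
structure Good (A : ι → E → V →L[ℝ] W) (B : E → V →L[ℝ] W) : Prop where
  a : ∀ l, ContDiff ℝ ∞ (A l)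
  as : ∀ l, HasCompactSupport (A l)
  b : ContDiff ℝ ∞ B
  bs : HasCompactSupport B

theorem dir_smooth {u : E → V} (hu : ContDiff ℝ ∞ u) (v : E) :
    ContDiff ℝ ∞ (fun y => fderiv ℝ u y v) :=
  (hu.fderiv_right (m := ∞) (by simp)).clm_apply contDiff_const

theorem Good.cA (h : Good A B) (l : ι) {u : E → V} (hu : Continuous u) :
    Continuous fun z => A l z (u z) := (h.a l).continuous.clm_apply hu

theorem Good.cB (h : Good A B) {u : E → V} (hu : Continuous u) :
    Continuous fun z => B z (u z) := h.b.continuous.clm_apply hu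

theorem Good.smooth (h : Good A B) {u : E → V} (hu : ContDiff ℝ ∞ u) :
    ContDiff ℝ ∞ (Pop A v B u) :=
  (ContDiff.sum fun l _ => (h.a l).clm_apply (dir_smooth hu (v l))).add (h.b.clm_apply hu)

theorem exists_bd {G : E → V →L[ℝ] W} (h : Continuous G) (hs : HasCompactSupport G) :
    ∃ C : NNReal, ∀ z, ‖G z‖ ≤ C := by
  obtain ⟨C, hC⟩ := h.bounded_above_of_compact_support hs
  exact ⟨⟨max C 0, le_max_right _ _⟩, fun z => (hC z).trans (le_max_left _ _)⟩

theorem eLp_clm {G : E → V →L[ℝ] W} {C : NNReal} (hC : ∀ z, ‖G z‖ ≤ C) (u : E → V) :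
    eLpNorm (fun z => G z (u z)) 2 μ ≤ C * eLpNorm u 2 μ := by
  refine eLpNorm_le_nnreal_smul_eLpNorm_of_ae_le_mul (Eventually.of_forall fun z => ?_) 2
  have := ((G z).le_opNorm (u z)).trans (mul_le_mul_of_nonneg_right (hC z) (norm_nonneg _))
  exact_mod_cast this

theorem mo_sum (m : ℕ) {κ : Type} (T : Finset κ) (f : κ → E → V) (hf : ∀ i, Continuous (f i)) :
    Mo μ m (∑ i ∈ T, f i) = ∑ i ∈ T, Mo μ m (f i) := by
  classical
  induction T using Finset.induction_on with
  | empty =>
    simp only [Finset.sum_empty]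
    funext x
    rw [mo_apply]
    simp
  | insert a T ha ih =>
    rw [Finset.sum_insert ha, Finset.sum_insert ha, mo_add m (hf a) ?_, ih]
    rw [show (∑ i ∈ T, f i) = fun z => ∑ i ∈ T, f i z from by funext z; simp]
    exact continuous_finsetSum _ fun i _ => hf i

theorem pop_comm_eq (h : Good A B) (m : ℕ) {u : E → V} (hu : ContDiff ℝ ∞ u) :
    Pop A v B (Mo μ m u) - Mo μ m (Pop A v B u) =
      ∑ l, (fun z => A l z (fderiv ℝ (Mo μ m u) z (v l)) -
        Mo μ m (fun y => A l y (fderiv ℝ u y (v l))) z) +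
      fun z => B z (Mo μ m u z) - Mo μ m (fun y => B y (u y)) z := by
  have h1 : Pop A v B u = (∑ l, fun z => A l z (fderiv ℝ u z (v l))) + fun z => B z (u z) := by
    funext z
    simp [Pop]
  have h2 : Continuous (∑ l, fun z => A l z (fderiv ℝ u z (v l))) := by
    rw [show (∑ l, fun z => A l z (fderiv ℝ u z (v l))) =
      fun z => ∑ l, A l z (fderiv ℝ u z (v l)) from by funext z; simp]
    exact continuous_finsetSum _ fun l _ => h.cA l (dir_smooth hu (v l)).continuous
  rw [h1, mo_add m h2 (h.cB hu.continuous),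
    mo_sum m _ _ fun l => h.cA l (dir_smooth hu (v l)).continuous]
  funext z
  simp only [Pi.sub_apply, Pi.add_apply, Finset.sum_apply, Pop, Finset.sum_sub_distrib]
  abel

/-- **Friedrichs**, uniform bound -/
theorem pop_comm_le (h : Good A B) : ∃ C : ℝ≥0∞, C ≠ ⊤ ∧ ∀ (m : ℕ) (u : E → V),
    ContDiff ℝ ∞ u → eLpNorm (Pop A v B (Mo μ m u) - Mo μ m (Pop A v B u)) 2 μ ≤
      C * eLpNorm u 2 μ := by
  choose L hL using fun l => ContDiff.lipschitzWith_of_hasCompactSupport (h.as l) (h.a l)
    (by simp)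
  obtain ⟨K, hK⟩ := exists_bd h.b.continuous h.bs
  refine ⟨(∑ l, (L l : ℝ≥0∞) * ‖v l‖ₑ * (frC μ + 1)) + (K + K), ?_, fun m u hu => ?_⟩
  · refine ENNReal.add_ne_top.2 ⟨?_, by simp⟩
    refine ENNReal.sum_ne_top.2 fun l _ => ?_
    exact ENNReal.mul_ne_top (ENNReal.mul_ne_top (by simp) (by simp))
      (ENNReal.add_ne_top.2 ⟨frC_ne_top, by simp⟩)
  · rw [pop_comm_eq h m hu]
    have hMu := mo_smooth (μ := μ) m hu.continuous
    have c1 : ∀ l, Continuous (fun z => A l z (fderiv ℝ (Mo μ m u) z (v l)) -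
        Mo μ m (fun y => A l y (fderiv ℝ u y (v l))) z) := fun l =>
      (h.cA l (dir_smooth hMu (v l)).continuous).sub
        (mo_smooth m (h.cA l (dir_smooth hu (v l)).continuous)).continuous
    have c2 : Continuous (fun z => B z (Mo μ m u z)) := h.cB hMu.continuous
    have c3 : Continuous (Mo μ m (fun y => B y (u y))) :=
      (mo_smooth m (h.cB hu.continuous)).continuous
    have c4 : Continuous (∑ l, (fun z => A l z (fderiv ℝ (Mo μ m u) z (v l)) -
        Mo μ m (fun y => A l y (fderiv ℝ u y (v l))) z)) := by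
      rw [show (∑ l, (fun z => A l z (fderiv ℝ (Mo μ m u) z (v l)) -
        Mo μ m (fun y => A l y (fderiv ℝ u y (v l))) z)) = fun z => ∑ l,
          (A l z (fderiv ℝ (Mo μ m u) z (v l)) -
            Mo μ m (fun y => A l y (fderiv ℝ u y (v l))) z) from by funext z; simp]
      exact continuous_finsetSum _ fun l _ => c1 l
    refine (eLpNorm_add_le c4.aestronglyMeasurable (c2.sub c3).aestronglyMeasurable
      (by norm_num)).trans ?_
    rw [add_mul]
    refine add_le_add ?_ ?_
    · refine (eLpNorm_sum_le (fun l _ => (c1 l).aestronglyMeasurable) (by norm_num)).trans ?_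
      rw [Finset.sum_mul]
      exact Finset.sum_le_sum fun l _ => comm_bound (h.a l) (hL l) hu (v l) m
    · refine (eLpNorm_sub_le (f := fun z => B z (Mo μ m u z)) (g := Mo μ m (fun y => B y (u y)))
        c2.aestronglyMeasurable c3.aestronglyMeasurable (by norm_num)).trans ?_
      rw [add_mul]
      refine add_le_add ?_ ?_
      · refine (eLp_clm hK _).trans ?_
        gcongr
        exact mo_le m hu.continuous
      · refine (mo_le m (h.cB hu.continuous)).trans (eLp_clm hK _)

/-- convergence for one function -/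
theorem pop_comm_tendsto (h : Good A B) {u : E → V} (hu : ContDiff ℝ ∞ u)
    (hs : HasCompactSupport u) :
    Tendsto (fun m => eLpNorm (Pop A v B (Mo μ m u) - Mo μ m (Pop A v B u)) 2 μ) atTop (𝓝 0) := by
  choose L hL using fun l => exists_bd (h.a l).continuous (h.as l)
  obtain ⟨K, hK⟩ := exists_bd h.b.continuous h.bs
  have hdc : ∀ l, Continuous (fun y => fderiv ℝ u y (v l)) := fun l =>
    (dir_smooth hu (v l)).continuous
  have hds : ∀ l, HasCompactSupport (fun y => fderiv ℝ u y (v l)) := fun l =>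
    hs.fderiv_apply (𝕜 := ℝ) (v l)
  have hPs : HasCompactSupport (Pop A v B u) := by
    refine hs.mono' ?_
    intro z hz
    by_contra hz2
    refine hz ?_
    have h1 : u =ᶠ[𝓝 z] fun _ => 0 := notMem_tsupport_iff_eventuallyEq.1 hz2
    have h2 : fderiv ℝ u z = 0 := by
      rw [h1.fderiv_eq, fderiv_fun_const]
      rfl
    simp only [Pop, h2, h1.eq_of_nhds, zero_apply, map_zero, Finset.sum_const_zero,
      add_zero]
  have hPc : Continuous (Pop A v B u) := (h.smooth hu).continuous
  have hlim : Tendsto (fun m => (∑ l, (L l : ℝ≥0∞) *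
      eLpNorm (Mo μ m (fun y => fderiv ℝ u y (v l)) - fun y => fderiv ℝ u y (v l)) 2 μ +
      K * eLpNorm (Mo μ m u - u) 2 μ) + eLpNorm (Mo μ m (Pop A v B u) - Pop A v B u) 2 μ)
      atTop (𝓝 ((∑ l : ι, (L l : ℝ≥0∞) * 0 + K * 0) + 0)) := by
    refine Tendsto.add (Tendsto.add (tendsto_finsetSum _ fun l _ => ?_) ?_) ?_
    · exact ENNReal.Tendsto.const_mul (mo_tendsto (hdc l) (hds l)) (Or.inr (by simp))
    · exact ENNReal.Tendsto.const_mul (mo_tendsto hu.continuous hs) (Or.inr (by simp))
    · exact mo_tendsto hPc hPs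
  simp only [mul_zero, Finset.sum_const_zero, add_zero] at hlim
  refine tendsto_of_tendsto_of_tendsto_of_le_of_le tendsto_const_nhds hlim
    (fun _ => zero_le) fun m => ?_
  have hMu := mo_smooth (μ := μ) m hu.continuous
  have e1 : Pop A v B (Mo μ m u) - Mo μ m (Pop A v B u) =
      (∑ l, (fun z => A l z ((Mo μ m (fun y => fderiv ℝ u y (v l)) -
        fun y => fderiv ℝ u y (v l)) z)) + fun z => B z ((Mo μ m u - u) z)) -
        (Mo μ m (Pop A v B u) - Pop A v B u) := by
    funext z
    simp only [Pop, Pi.sub_apply, Pi.add_apply, Finset.sum_apply, map_sub,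
      Finset.sum_sub_distrib, fderiv_mo m hu]
    abel
  rw [e1]
  have d1 : ∀ l, Continuous (Mo μ m (fun y => fderiv ℝ u y (v l)) -
      fun y => fderiv ℝ u y (v l)) := fun l =>
    (mo_smooth m (hdc l)).continuous.sub (hdc l)
  have c1 : ∀ l, Continuous (fun z => A l z ((Mo μ m (fun y => fderiv ℝ u y (v l)) -
        fun y => fderiv ℝ u y (v l)) z)) := fun l => h.cA l (d1 l)
  have c2 : Continuous (fun z => B z ((Mo μ m u - u) z)) :=
    h.cB (hMu.continuous.sub hu.continuous)
  have c3 : Continuous (Mo μ m (Pop A v B u) - Pop A v B u) :=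
    (mo_smooth m hPc).continuous.sub hPc
  have c4 : Continuous (∑ l, (fun z => A l z ((Mo μ m (fun y => fderiv ℝ u y (v l)) -
        fun y => fderiv ℝ u y (v l)) z))) := by
    rw [show (∑ l, (fun z => A l z ((Mo μ m (fun y => fderiv ℝ u y (v l)) -
        fun y => fderiv ℝ u y (v l)) z))) = fun z => ∑ l, A l z ((Mo μ m
          (fun y => fderiv ℝ u y (v l)) - fun y => fderiv ℝ u y (v l)) z) from by
            funext z; simp]
    exact continuous_finsetSum _ fun l _ => c1 l
  refine (eLpNorm_sub_le (c4.add c2).aestronglyMeasurable c3.aestronglyMeasurable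
    (by norm_num)).trans ?_
  gcongr
  refine (eLpNorm_add_le c4.aestronglyMeasurable c2.aestronglyMeasurable (by norm_num)).trans ?_
  refine add_le_add ?_ (eLp_clm hK _)
  refine (eLpNorm_sum_le (fun l _ => (c1 l).aestronglyMeasurable) (by norm_num)).trans ?_
  exact Finset.sum_le_sum fun l _ => eLp_clm (hL l) _

/-- **Friedrichs' lemma** for a Cauchy sequence -/
theorem pop_unif (h : Good A B) {u : ℕ → E → V} (hC : CS μ u) (hc : ∀ k, ContDiff ℝ ∞ (u k))
    (hs : ∀ k, HasCompactSupport (u k)) {ε : ℝ≥0∞} (hε : 0 < ε) :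
    ∀ᶠ m in atTop, ∀ᶠ k in atTop,
      eLpNorm (Pop A v B (Mo μ m (u k)) - Mo μ m (Pop A v B (u k))) 2 μ ≤ ε := by
  obtain ⟨C, hCt, hCb⟩ := pop_comm_le (v := v) (μ := μ) h
  obtain ⟨k₀, hk₀⟩ := hC.ev (C := C) hCt (ε := ε / 2) (ENNReal.half_pos hε.ne')
  have h2 := (ENNReal.tendsto_nhds_zero.1 (pop_comm_tendsto (v := v) (μ := μ) h (hc k₀) (hs k₀)))
    (ε / 2) (ENNReal.half_pos hε.ne')
  filter_upwards [h2] with m hm
  filter_upwards [eventually_ge_atTop k₀] with k hk
  have hsub : ContDiff ℝ ∞ (u k - u k₀) := (hc k).sub (hc k₀)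
  have hlin : ∀ f g : E → V, ContDiff ℝ ∞ f → ContDiff ℝ ∞ g →
      Pop A v B (f - g) = Pop A v B f - Pop A v B g := by
    intro f g hf hg
    funext z
    simp only [Pop, Pi.sub_apply]
    rw [fderiv_sub (hf.differentiable (by simp) z) (hg.differentiable (by simp) z)]
    simp only [sub_apply, map_sub, Finset.sum_sub_distrib]
    abel
  have e1 : Pop A v B (Mo μ m (u k)) - Mo μ m (Pop A v B (u k)) =
      (Pop A v B (Mo μ m (u k - u k₀)) - Mo μ m (Pop A v B (u k - u k₀))) +
      (Pop A v B (Mo μ m (u k₀)) - Mo μ m (Pop A v B (u k₀))) := by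
    rw [mo_sub m (hc k).continuous (hc k₀).continuous, hlin _ _ (mo_smooth m (hc k).continuous)
      (mo_smooth m (hc k₀).continuous), hlin _ _ (hc k) (hc k₀),
      mo_sub m (h.smooth (hc k)).continuous (h.smooth (hc k₀)).continuous]
    abel
  have cc : ∀ f : E → V, ContDiff ℝ ∞ f → AEStronglyMeasurable
      (Pop A v B (Mo μ m f) - Mo μ m (Pop A v B f)) μ := fun f hf =>
    ((h.smooth (mo_smooth m hf.continuous)).continuous.sub
      (mo_smooth m (h.smooth hf).continuous).continuous).aestronglyMeasurable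
  rw [e1]
  refine (eLpNorm_add_le (cc _ hsub) (cc _ (hc k₀)) (by norm_num)).trans ?_
  refine (add_le_add ((hCb m _ hsub).trans (hk₀ k k₀ hk le_rfl)) hm).trans (le_of_eq ?_)
  exact ENNReal.add_halves ε

end

end Vale.Agent.P284.H419.K
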