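import Vale.Agent.P284.H419.K.LocT
import Vale.Agent.P284.H136.K9.Pou

/-!
# P284 (helper419), theorem K, density of test forms: multiplication of sequences by functions
-/

open scoped ContDiff Topology ComplexConjugate ComplexOrder ENNReal
open Filter Set MeasureTheory

set_option linter.unusedSectionVars false

noncomputable section

namespace Vale.Agent.P284.H419.K

open Vale.Agent.P272.K Vale.Agent.P284.H608.K

variable {n p : ℕ} {M : Type} [TopologicalSpace M] [T2Space M] [MeasurableSpace M] [BorelSpace M]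
  {K : KA n M}

theorem test_add {a b : K.Fm p} (ha : K.Test a) (hb : K.Test b) : K.Test (a + b) :=
  H286.K.test_add K ha hb

theorem dh_add (h3 : K3Stmt n M K) {a b : K.Fm p} (ha : K.Test a) (hb : K.Test b) :
    K.dh (a + b) = K.dh a + K.dh b :=
  congrArg Subtype.val (map_add (H286.K.dT' h3 p) (⟨a, ha⟩ : H286.K.TS K p) ⟨b, hb⟩)

theorem dh_sub (h3 : K3Stmt n M K) {a b : K.Fm p} (ha : K.Test a) (hb : K.Test b) :
    K.dh (a - b) = K.dh a - K.dh b :=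
  congrArg Subtype.val (map_sub (H286.K.dT' h3 p) (⟨a, ha⟩ : H286.K.TS K p) ⟨b, hb⟩)

theorem dh_zero (h3 : K3Stmt n M K) : K.dh (0 : K.Fm p) = 0 :=
  congrArg Subtype.val ((H286.K.dT' h3 p).map_zero)

theorem S_add (h3 : K3Stmt n M K) {a b : K.Fm (p + 1)} (ha : K.Test a) (hb : K.Test b) :
    K.S (a + b) = K.S a + K.S b :=
  congrArg Subtype.val (map_add (H286.K.sT h3 p) (⟨a, ha⟩ : H286.K.TS K (p + 1)) ⟨b, hb⟩)

theorem S_sub (h3 : K3Stmt n M K) {a b : K.Fm (p + 1)} (ha : K.Test a) (hb : K.Test b) :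
    K.S (a - b) = K.S a - K.S b :=
  congrArg Subtype.val (map_sub (H286.K.sT h3 p) (⟨a, ha⟩ : H286.K.TS K (p + 1)) ⟨b, hb⟩)

theorem S_zero (h3 : K3Stmt n M K) : K.S (0 : K.Fm (p + 1)) = 0 :=
  congrArg Subtype.val ((H286.K.sT h3 p).map_zero)

theorem mf_add (f : M → ℝ) (a b : K.Fm p) : mf f (a + b) = mf f a + mf f b := by
  funext i z
  exact smul_add _ _ _

theorem mf_sub (f : M → ℝ) (a b : K.Fm p) : mf f (a - b) = mf f a - mf f b := by
  funext i z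
  exact smul_sub _ _ _

theorem wf_sub (h3 : K3Stmt n M K) {f : M → ℝ} (hf : SmF K f) {a b : K.Fm p} (ha : K.Test a)
    (hb : K.Test b) : wf f (a - b) = wf f a - wf f b := by
  rw [wf, wf, wf, mf_sub, dh_sub h3 (mf_test hf ha) (mf_test hf hb), dh_sub h3 ha hb, mf_sub]
  abel

theorem cf_sub (h3 : K3Stmt n M K) {f : M → ℝ} (hf : SmF K f) {a b : K.Fm (p + 1)}
    (ha : K.Test a) (hb : K.Test b) : cf f (a - b) = cf f a - cf f b := by
  rw [cf, cf, cf, mf_sub, S_sub h3 (mf_test hf ha) (mf_test hf hb), S_sub h3 ha hb, mf_sub]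
  abel

theorem ip_mf (f : M → ℝ) (r ψ : K.Fm p) : K.ip (mf f r) ψ = K.ip r (mf f ψ) := by
  rw [KA.ip, KA.ip]
  congr 1
  funext x
  have h1 : ∀ η : K.Fm p, mf f η (K.ix x) (K.e (K.ix x) x) = (f x : ℂ) •
      η (K.ix x) (K.e (K.ix x) x) := fun η => by
    rw [mf, fc, (K.e _).left_inv (mem_ix x)]
  rw [KA.dn, KA.dn, h1, h1, hn_smul_left, hn_smul_right, Complex.conj_ofReal]

theorem wn_mf {r : ℕ → K.Fm p} (hr : WN r) {f : M → ℝ} (hf : SmF K f) :
    WN fun k => mf f (r k) := fun ψ hψ =>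
  (hr _ (mf_test hf hψ)).congr fun k => (ip_mf f (r k) ψ).symm

/-! ### bounds -/

theorem nq_mf (h3 : K3Stmt n M K) (h1 : K1Stmt) {f : M → ℝ} (hf : SmF K f) (hb : ∀ x, |f x| ≤ 1)
    {η : K.Fm p} (h : K.Test η) : K.nq (mf f η) ≤ K.nq η := by
  have := nq_le h3 (mf_test hf h) h (c := 1) fun x => by
    rw [ds_mf]
    have h5 : f x ^ 2 ≤ 1 := by
      rw [← sq_abs]
      exact pow_le_one₀ (abs_nonneg _) (hb x)
    exact mul_le_mul_of_nonneg_right h5 (ds_nonneg h1 η x)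
  rwa [one_mul] at this

theorem ds_off {η : K.Fm p} {C : Set M} (h : K.Off C η) {x : M} (hx : x ∉ C) : ds η x = 0 := by
  rw [ds, dn_off_left h hx]
  rfl

/-- a smooth function with compact support has bounded gradient -/
theorem exists_gb {f : M → ℝ} (hf : SmF K f) {D : Set M} (hD : IsCompact D) :
    ∃ c : ℝ, 0 ≤ c ∧ ∀ x ∈ D, ∃ i, x ∈ (K.e i).source ∧ GB f c K i x := by
  refine hD.induction_on (p := fun D => ∃ c : ℝ, 0 ≤ c ∧ ∀ x ∈ D, ∃ i, x ∈ (K.e i).source ∧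
    GB f c K i x) ⟨0, le_rfl, fun x hx => absurd hx (notMem_empty x)⟩ ?_ ?_ ?_
  · rintro s t hst ⟨c, hc, h⟩
    exact ⟨c, hc, fun x hx => h x (hst hx)⟩
  · rintro s t ⟨c, hc, h⟩ ⟨d, hd, h'⟩
    refine ⟨max c d, le_max_of_le_left hc, ?_⟩
    rintro x (hx | hx)
    · obtain ⟨i, hi, hg⟩ := h x hx
      exact ⟨i, hi, hg.trans (le_max_left _ _)⟩
    · obtain ⟨i, hi, hg⟩ := h' x hx
      exact ⟨i, hi, hg.trans (le_max_right _ _)⟩
  · intro x _
    obtain ⟨i, hi⟩ := K.cover x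
    have hz := (K.e i).map_source hi
    set g : Cm n → ℝ := fun z => (mn (K.w i z) (fun a => dz a (fc K f i) z)).re with hg
    have hgc : ContinuousAt g (K.e i x) := by
      refine Complex.continuous_re.continuousAt.comp ?_
      have h2 : ∀ a, ContinuousAt (fun z => dz a (fc K f i) z) (K.e i x) := by
        intro a
        have h4 : ContDiffAt ℝ ∞ (fderiv ℝ (fc K f i)) (K.e i x) :=
          (fc_smooth hf i hz).fderiv_right (m := ∞) (by simp)
        have h5 : ∀ v : Cm n, ContinuousAt (fun z => fderiv ℝ (fc K f i) z v) (K.e i x) :=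
          fun v => (h4.clm_apply contDiffAt_const).continuousAt
        exact ((h5 _).sub (continuousAt_const.mul (h5 _))).div_const 2
      have hin : C2.MC 0 (fun z => (K.w i z)⁻¹) (K.e i x) := C2.MC.inv (A := K.w i)
        (fun j k => (K.wsm i _ hz j k).of_le (by simp)) (K.wpos i _ hz).det_pos.ne'
      unfold mn
      refine tendsto_finsetSum _ fun b _ => tendsto_finsetSum _ fun b' _ => ?_
      exact ((hin b b').continuousAt).mul
        ((Complex.continuous_conj.continuousAt.comp (h2 b)).mul (h2 b'))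
    have h6 : ∀ᶠ y in 𝓝 x, g (K.e i y) < |g (K.e i x)| + 1 :=
      (hgc.comp ((K.e i).continuousAt hi)).eventually_lt continuousAt_const
        (lt_of_le_of_lt (le_abs_self _) (lt_add_one _))
    refine ⟨_, mem_nhdsWithin_of_mem_nhds (inter_mem h6 ((K.e i).open_source.mem_nhds hi)),
      |g (K.e i x)| + 1, by positivity, ?_⟩
    rintro y ⟨hy1, hy2⟩
    exact ⟨i, hy2, le_of_lt hy1⟩

theorem wf_off {f : M → ℝ} {η : K.Fm p} {D : Set M} (hD : IsClosed D) (h0 : ∀ x ∉ D, f x = 0) :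
    K.Off D (wf f η) := off_sub (off_dh hD (mf_off' h0)) (mf_off' h0)

theorem cf_off {f : M → ℝ} {η : K.Fm (p + 1)} {D : Set M} (hD : IsClosed D)
    (h0 : ∀ x ∉ D, f x = 0) : K.Off D (cf f η) := off_sub (off_S hD (mf_off' h0)) (mf_off' h0)

theorem bd_wf (h1 : K1Stmt) (h3 : K3Stmt n M K) {f : M → ℝ} (hf : SmF K f) {D : Set M}
    (hD : IsCompact D) (h0 : ∀ x ∉ D, f x = 0) : ∃ c : ℝ, 0 ≤ c ∧
      (∀ (p : ℕ) (η : K.Fm p), K.Test η → K.nq (wf f η) ≤ c * K.nq η) ∧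
      ∀ (p : ℕ) (η : K.Fm (p + 1)), K.Test η → K.nq (cf f η) ≤ c * K.nq η := by
  obtain ⟨c, hc, hg⟩ := exists_gb hf hD
  refine ⟨c, hc, fun p η h => nq_le h3 (wf_test h3 hf h) h fun x => ?_,
    fun p η h => nq_le h3 (cf_test h3 hf h) h fun x => ?_⟩
  · by_cases hx : x ∈ D
    · obtain ⟨i, hi, hgi⟩ := hg x hx
      exact ds_wf h1 h3 hf h.form h.smooth hi hgi
    · rw [ds_off (wf_off hD.isClosed h0) hx]
      exact mul_nonneg hc (ds_nonneg h1 _ _)
  · by_cases hx : x ∈ D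
    · obtain ⟨i, hi, hgi⟩ := hg x hx
      exact ds_cf h1 h3 hf h.form h.smooth hi hgi
    · rw [ds_off (cf_off hD.isClosed h0) hx]
      exact mul_nonneg hc (ds_nonneg h1 _ _)

/-! ### Cauchy sequences -/

theorem nc_of_le (h1 : K1Stmt) (h3 : K3Stmt n M K) {q r : ℕ} {x : ℕ → K.Fm p} {y : ℕ → K.Fm q}
    {z : ℕ → K.Fm r} (hx : ∀ k, K.Test (x k)) {c d : ℝ} (hy : NC y) (hz : NC z)
    (hle : ∀ k l, K.nq (x k - x l) ≤ c * K.nq (y k - y l) + d * K.nq (z k - z l)) : NC x := by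
  have h5 : Tendsto (fun q : ℕ × ℕ => c * K.nq (y q.1 - y q.2) + d * K.nq (z q.1 - z q.2))
      atTop (𝓝 (c * 0 + d * 0)) := (hy.const_mul c).add (hz.const_mul d)
  rw [mul_zero, mul_zero, add_zero] at h5
  exact squeeze_zero (fun q => nq_nn h1 h3 (test_sub (hx _) (hx _))) (fun q => hle _ _) h5

theorem nc_mf (h1 : K1Stmt) (h3 : K3Stmt n M K) {f : M → ℝ} (hf : SmF K f)
    (hb : ∀ x, |f x| ≤ 1) {x : ℕ → K.Fm p} (hx : ∀ k, K.Test (x k)) (hN : NC x) :
    NC fun k => mf f (x k) := by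
  refine nc_of_le h1 h3 (c := 1) (d := 0) (fun k => mf_test hf (hx k)) hN hN fun k l => ?_
  rw [← mf_sub, one_mul, zero_mul, add_zero]
  exact nq_mf h3 h1 hf hb (test_sub (hx _) (hx _))

theorem nc_w (h1 : K1Stmt) (h3 : K3Stmt n M K) {f : M → ℝ} (hf : SmF K f)
    (hb : ∀ x, |f x| ≤ 1) {D : Set M} (hD : IsCompact D) (h0 : ∀ x ∉ D, f x = 0)
    {x : ℕ → K.Fm p} (hx : ∀ k, K.Test (x k)) (hN : NC x)
    {α : ℕ → K.Fm (p + 1)} (hα : ∀ k, K.Test (α k)) (hNα : NC α) :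
    NC fun k => mf f (α k) + wf f (x k) := by
  obtain ⟨c, hc, hw, -⟩ := bd_wf h1 h3 hf hD h0
  refine nc_of_le h1 h3 (c := 2) (d := 2 * c) (fun k => test_add (mf_test hf (hα k))
    (wf_test h3 hf (hx k))) hNα hN fun k l => ?_
  have e1 : (mf f (α k) + wf f (x k)) - (mf f (α l) + wf f (x l)) =
      mf f (α k - α l) + wf f (x k - x l) := by
    rw [mf_sub, wf_sub h3 hf (hx k) (hx l)]
    abel
  rw [e1]
  have h5 := nq_add_le h1 h3 (mf_test hf (test_sub (hα k) (hα l)))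
    (wf_test h3 hf (test_sub (hx k) (hx l)))
  have h6 := nq_mf h3 h1 hf hb (test_sub (hα k) (hα l))
  have h7 := hw p _ (test_sub (hx k) (hx l))
  linarith

theorem nc_c (h1 : K1Stmt) (h3 : K3Stmt n M K) {f : M → ℝ} (hf : SmF K f)
    (hb : ∀ x, |f x| ≤ 1) {D : Set M} (hD : IsCompact D) (h0 : ∀ x ∉ D, f x = 0)
    {x : ℕ → K.Fm (p + 1)} (hx : ∀ k, K.Test (x k)) (hN : NC x)
    {α : ℕ → K.Fm p} (hα : ∀ k, K.Test (α k)) (hNα : NC α) :
    NC fun k => mf f (α k) + cf f (x k) := by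
  obtain ⟨c, hc, -, hw⟩ := bd_wf h1 h3 hf hD h0
  refine nc_of_le h1 h3 (c := 2) (d := 2 * c) (fun k => test_add (mf_test hf (hα k))
    (cf_test h3 hf (hx k))) hNα hN fun k l => ?_
  have e1 : (mf f (α k) + cf f (x k)) - (mf f (α l) + cf f (x l)) =
      mf f (α k - α l) + cf f (x k - x l) := by
    rw [mf_sub, cf_sub h3 hf (hx k) (hx l)]
    abel
  rw [e1]
  have h5 := nq_add_le h1 h3 (mf_test hf (test_sub (hα k) (hα l)))
    (cf_test h3 hf (test_sub (hx k) (hx l)))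
  have h6 := nq_mf h3 h1 hf hb (test_sub (hα k) (hα l))
  have h7 := hw p _ (test_sub (hx k) (hx l))
  linarith

theorem off_add {C : Set M} {η ζ : K.Fm p} (h : K.Off C η) (h' : K.Off C ζ) :
    K.Off C (η + ζ) := by
  intro i x hx hxC
  change η i (K.e i x) + ζ i (K.e i x) = 0
  rw [h i x hx hxC, h' i x hx hxC, add_zero]

section loc

variable (h1 : K1Stmt) (h3 : K3Stmt n M K) (i : K.I) {f : M → ℝ} (hf : SmF K f)
    (hb : ∀ x, |f x| ≤ 1) {D : Set M} (hD : IsCompact D) (hDs : D ⊆ (K.e i).source)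
    (h0 : ∀ x ∉ D, f x = 0)

include h1 h3 hf hb hD hDs h0

theorem mul_x {x : ℕ → K.Fm p} (hx : ∀ k, K.Test (x k)) (hN : NC x) {ε : ℝ} (hε : 0 < ε) :
    ∀ᶠ m in atTop, ∀ᶠ k in atTop, K.Test (Rm K i m (mf f (x k))) ∧
      K.nq (Rm K i m (mf f (x k)) - mf f (x k)) ≤ ε :=
  loc_x h1 h3 i hD hDs (fun k => mf_test hf (hx k)) (fun _ => mf_off' h0)
    (nc_mf h1 h3 hf hb hx hN) hε

theorem mul_dh {x : ℕ → K.Fm p} (hx : ∀ k, K.Test (x k)) (hN : NC x)
    {α : ℕ → K.Fm (p + 1)} (hα : ∀ k, K.Test (α k)) (hNα : NC α)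
    (hw : WN fun k => K.dh (x k) - α k) {ε : ℝ} (hε : 0 < ε) :
    ∀ᶠ m in atTop, ∀ᶠ k in atTop,
      K.nq (K.dh (Rm K i m (mf f (x k))) - (mf f (α k) + wf f (x k))) ≤ ε := by
  refine loc_dh h1 h3 i hD hDs (fun k => mf_test hf (hx k)) (fun k => mf_off' h0)
    (nc_mf h1 h3 hf hb hx hN) (fun k => test_add (mf_test hf (hα k)) (wf_test h3 hf (hx k)))
    (fun k => off_add (mf_off' h0) (wf_off hD.isClosed h0)) (nc_w h1 h3 hf hb hD h0 hx hN hα hNα)
    ?_ hε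
  have h5 := wn_mf hw hf
  intro ψ hψ
  refine (h5 ψ hψ).congr fun k => ?_
  congr 1
  change mf f (K.dh (x k) - α k) = K.dh (mf f (x k)) - (mf f (α k) + wf f (x k))
  rw [mf_sub, wf]
  abel

theorem mul_S {x : ℕ → K.Fm (p + 1)} (hx : ∀ k, K.Test (x k)) (hN : NC x)
    {α : ℕ → K.Fm p} (hα : ∀ k, K.Test (α k)) (hNα : NC α)
    (hw : WN fun k => K.S (x k) - α k) {ε : ℝ} (hε : 0 < ε) :
    ∀ᶠ m in atTop, ∀ᶠ k in atTop,
      K.nq (K.S (Rm K i m (mf f (x k))) - (mf f (α k) + cf f (x k))) ≤ ε := by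
  refine loc_S h1 h3 i hD hDs (fun k => mf_test hf (hx k)) (fun k => mf_off' h0)
    (nc_mf h1 h3 hf hb hx hN) (fun k => test_add (mf_test hf (hα k)) (cf_test h3 hf (hx k)))
    (fun k => off_add (mf_off' h0) (cf_off hD.isClosed h0)) (nc_c h1 h3 hf hb hD h0 hx hN hα hNα)
    ?_ hε
  have h5 := wn_mf hw hf
  intro ψ hψ
  refine (h5 ψ hψ).congr fun k => ?_
  congr 1
  change mf f (K.S (x k) - α k) = K.S (mf f (x k)) - (mf f (α k) + cf f (x k))
  rw [mf_sub, cf]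
  abel

end loc

end Vale.Agent.P284.H419.K
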